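import Vale.Agent.P084.Smooth.GainBasic

/-!
P084, asymptotic classes: a uniformly smooth Banach space has a uniformly convex dual, so bounded
sequences have weak limits along an ultrafilter.
-/

open Filter Topology Metric NormedSpace

namespace Vale.Agent.P084.Asym

open Vale.Agent.P084.Smooth

universe u

set_option maxSynthPendingDepth 3

variable {E : Type u} [NormedAddCommGroup E] [NormedSpace ℝ E]

theorem exists_norming_near (φ : StrongDual ℝ E) {ε : ℝ} (hε : 0 < ε) :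
    ∃ x : E, ‖x‖ ≤ 1 ∧ ‖φ‖ - ε ≤ φ x := by
  by_contra hcon
  push Not at hcon
  have hpos : 0 < ‖φ‖ - ε := by
    have := hcon 0 (by simp)
    simpa using this
  have : ‖φ‖ ≤ ‖φ‖ - ε := by
    refine ContinuousLinearMap.opNorm_le_of_unit_norm (𝕜 := ℝ) hpos.le fun x hx => ?_
    rw [Real.norm_eq_abs, abs_le]
    have h1 := hcon x hx.le
    have h2 := hcon (-x) (by rw [norm_neg, hx])
    rw [map_neg] at h2
    exact ⟨by linarith, by linarith⟩
  linarith

/-- the dual of a uniformly smooth space is uniformly convex -/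
theorem dual_uc (h : SmoothU E) : UniformConvexSpace (StrongDual ℝ E) := by
  refine ⟨fun ε hε => ?_⟩
  obtain ⟨t, ht, H⟩ := h (ε / 4) (by positivity)
  refine ⟨t * ε / 2, by positivity, fun φ hφ ψ hψ hd => ?_⟩
  obtain ⟨k, hk, hk'⟩ := exists_norming_near (φ - ψ) (show (0 : ℝ) < ε / 4 by positivity)
  rw [sub_apply] at hk'
  have hb : ∀ x : E, ‖x‖ = 1 → (φ + ψ) x ≤ 2 - t * ε / 2 := by
    intro x hx
    have htk : ‖t • k‖ ≤ t := by
      rw [norm_smul_of_nonneg ht.le]; exact mul_le_of_le_one_right ht.le hk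
    have h1 := H x (t • k) hx htk
    have h2 : φ (x + t • k) ≤ ‖x + t • k‖ :=
      ((le_abs_self _).trans (φ.le_opNorm _)).trans (by rw [hφ, one_mul])
    have h3 : ψ (x - t • k) ≤ ‖x - t • k‖ :=
      ((le_abs_self _).trans (ψ.le_opNorm _)).trans (by rw [hψ, one_mul])
    rw [map_add, map_smul, smul_eq_mul] at h2
    rw [map_sub, map_smul, smul_eq_mul] at h3
    have h4 : t * (‖φ - ψ‖ - ε / 4) ≤ t * (φ k - ψ k) := mul_le_mul_of_nonneg_left hk' ht.le
    have h5 : t * (3 * ε / 4) ≤ t * (‖φ - ψ‖ - ε / 4) :=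
      mul_le_mul_of_nonneg_left (by linarith) ht.le
    have h6 : ε / 4 * ‖t • k‖ ≤ ε / 4 * t := mul_le_mul_of_nonneg_left htk (by positivity)
    rw [add_apply]
    linarith
  by_contra hcon
  push Not at hcon
  obtain ⟨x, hx, hx'⟩ := exists_norming_near (φ + ψ)
    (show (0 : ℝ) < (‖φ + ψ‖ - (2 - t * ε / 2)) / 2 by linarith)
  have hpos : 0 ≤ 2 - t * ε / 2 := by
    rcases subsingleton_or_nontrivial E with hs | hn
    · rw [ContinuousLinearMap.opNorm_subsingleton] at hφ; norm_num at hφ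
    · obtain ⟨x₁, hx₁⟩ := exists_norm_eq E zero_le_one
      have h1 := hb x₁ hx₁
      have h2 := hb (-x₁) (by rw [norm_neg, hx₁])
      rw [map_neg] at h2
      linarith
  rcases eq_or_ne x 0 with rfl | hx0
  · rw [map_zero] at hx'; linarith
  have h1 := hb (‖x‖⁻¹ • x) (norm_smul_inv_norm (𝕜 := ℝ) hx0)
  rw [map_smul, smul_eq_mul, inv_mul_le_iff₀ (norm_pos_iff.2 hx0)] at h1
  have := mul_le_of_le_one_left hpos hx
  linarith

variable {W : Type u} [NormedAddCommGroup W] [NormedSpace ℝ W]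

/-- a functional on the dual is nearly matched by the unit ball on finitely many functionals -/
theorem goldstine {m : ℕ} (L : Fin m → StrongDual ℝ W) (Ψ : StrongDual ℝ (StrongDual ℝ W))
    (hΨ : ‖Ψ‖ ≤ 1) {ε : ℝ} (hε : 0 < ε) :
    ∃ w : W, ‖w‖ ≤ 1 ∧ ∀ i, |Ψ (L i) - L i w| ≤ ε := by
  classical
  by_contra hcon
  push Not at hcon
  set T : W →L[ℝ] (Fin m → ℝ) := ContinuousLinearMap.pi L
  set K := closure (T '' closedBall 0 1)
  have hK : Convex ℝ K :=
    ((convex_closedBall (0 : W) 1).linear_image T.toLinearMap).closure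
  have hnot : (fun i => Ψ (L i)) ∉ K := by
    intro hin
    obtain ⟨_, ⟨w, hw, rfl⟩, hd⟩ := Metric.mem_closure_iff.1 hin ε hε
    obtain ⟨i, hi⟩ := hcon w (by simpa using hw)
    have := (dist_le_pi_dist (fun i => Ψ (L i)) (T w) i).trans hd.le
    rw [Real.dist_eq] at this
    exact not_lt.2 this hi
  obtain ⟨g, u, hgK, hgp⟩ := geometric_hahn_banach_closed_point hK isClosed_closure hnot
  have hsum : ∀ v : Fin m → ℝ, g v = ∑ i, g (Pi.single i 1) * v i := by
    intro v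
    have hv : v = ∑ i, v i • (Pi.single i (1 : ℝ) : Fin m → ℝ) := by
      funext j
      simp [Finset.sum_apply, Pi.single_apply]
    conv_lhs => rw [hv]
    rw [map_sum]
    simp [mul_comm]
  set Λ : StrongDual ℝ W := ∑ i, g (Pi.single i 1) • L i
  have hΛ : ∀ w : W, ‖w‖ ≤ 1 → Λ w < u := fun w hw => by
    have := hgK (T w) (subset_closure ⟨w, by simpa using hw, rfl⟩)
    rw [hsum] at this
    simpa [Λ, T] using this
  have hu : 0 < u := by simpa using hΛ 0 (by simp)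
  have hΛn : ‖Λ‖ ≤ u := by
    refine ContinuousLinearMap.opNorm_le_of_unit_norm (𝕜 := ℝ) hu.le fun x hx => ?_
    rw [Real.norm_eq_abs, abs_le]
    have h1 := hΛ x hx.le
    have h2 := hΛ (-x) (by rw [norm_neg, hx])
    rw [map_neg] at h2
    exact ⟨by linarith, h1.le⟩
  have h2 : Ψ Λ = g fun i => Ψ (L i) := by rw [hsum]; simp [Λ, map_sum]
  have h3 : Ψ Λ ≤ u := ((le_abs_self _).trans (Ψ.le_opNorm Λ)).trans
    ((mul_le_of_le_one_left (norm_nonneg _) hΨ).trans hΛn)
  linarith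

/-- Milman and Pettis: a complete uniformly convex space is reflexive -/
theorem reflexive_uc [CompleteSpace W] [UniformConvexSpace W] (Ψ : StrongDual ℝ (StrongDual ℝ W))
    (hΨ : ‖Ψ‖ = 1) : ∃ w : W, ∀ L : StrongDual ℝ W, Ψ L = L w := by
  classical
  have hex : ∀ k : ℕ, ∃ L : StrongDual ℝ W, ‖L‖ ≤ 1 ∧ 1 - (1 : ℝ) / (k + 1) ≤ Ψ L := fun k => by
    have := exists_norming_near Ψ (show (0 : ℝ) < 1 / (k + 1) by positivity)
    rwa [hΨ] at this
  choose L hL hL' using hex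
  -- a point of the ball near `Ψ` on the first `k + 1` functionals and one more
  have hgold : ∀ (M : StrongDual ℝ W) (k : ℕ), ∃ w : W, ‖w‖ ≤ 1 ∧ |Ψ M - M w| ≤ 1 / ((k : ℝ) + 1) ∧
      ∀ j ≤ k, |Ψ (L j) - L j w| ≤ 1 / ((k : ℝ) + 1) := by
    intro M k
    obtain ⟨w, hw, hw'⟩ := goldstine (m := k + 2) (Fin.cons M fun j : Fin (k + 1) => L j) Ψ hΨ.le
      (show (0 : ℝ) < 1 / ((k : ℝ) + 1) by positivity)
    exact ⟨w, hw, by simpa using hw' 0, fun j hj => by
      simpa using hw' (Fin.succ ⟨j, by omega⟩)⟩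
  have hclose : ∀ η : ℝ, 0 < η → ∃ N : ℕ, ∀ k ≥ N, ∀ a b : W, ‖a‖ ≤ 1 → ‖b‖ ≤ 1 →
      |Ψ (L k) - L k a| ≤ 1 / ((k : ℝ) + 1) → |Ψ (L k) - L k b| ≤ 1 / ((k : ℝ) + 1) →
      ‖a - b‖ ≤ η := by
    intro η hη
    obtain ⟨δ, hδ, H⟩ := exists_forall_closed_ball_dist_add_le_two_sub W hη
    obtain ⟨N, hN⟩ := exists_nat_gt (4 / δ)
    refine ⟨N, fun k hk a b ha hb hka hkb => ?_⟩
    by_contra hc
    push Not at hc
    have h1 := H ha hb hc.le
    have h2 : L k (a + b) ≤ ‖a + b‖ := ((le_abs_self _).trans ((L k).le_opNorm _)).trans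
      (mul_le_of_le_one_left (norm_nonneg _) (hL k))
    rw [map_add] at h2
    have h3 : 1 / ((k : ℝ) + 1) < δ / 4 := by
      rw [div_lt_div_iff₀ (by positivity) (by norm_num)]
      rw [div_lt_iff₀ hδ] at hN
      have : (N : ℝ) ≤ k := Nat.cast_le.2 hk
      nlinarith
    linarith [hL' k, (abs_le.1 hka).2, (abs_le.1 hkb).2]
  choose w₀ hw₀ hw₀M hw₀L using hgold 0
  have hcau : CauchySeq w₀ := by
    rw [Metric.cauchySeq_iff']
    intro η hη
    obtain ⟨N, hN⟩ := hclose (η / 2) (by positivity)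
    refine ⟨N, fun n hn => ?_⟩
    have hle : (1 : ℝ) / ((n : ℝ) + 1) ≤ 1 / ((N : ℝ) + 1) := by
      apply one_div_le_one_div_of_le (by positivity); gcongr
    have := hN N le_rfl (w₀ n) (w₀ N) (hw₀ n) (hw₀ N) ((hw₀L n N hn).trans hle) (hw₀L N N le_rfl)
    rw [dist_eq_norm]
    linarith
  obtain ⟨w, hw⟩ := cauchySeq_tendsto_of_complete hcau
  refine ⟨w, fun M => ?_⟩
  choose v hv hvM hvL using hgold M
  have h1 : Tendsto v atTop (𝓝 w) := by
    refine hw.congr_dist (Metric.tendsto_atTop.2 fun η hη => ?_)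
    obtain ⟨N, hN⟩ := hclose (η / 2) (by positivity)
    refine ⟨N, fun n hn => ?_⟩
    rw [Real.dist_eq, sub_zero, abs_of_nonneg dist_nonneg, dist_eq_norm]
    linarith [hN n hn (w₀ n) (v n) (hw₀ n) (hv n) (hw₀L n n le_rfl) (hvL n n le_rfl)]
  have h2 : Tendsto (fun n => |Ψ M - M (v n)|) atTop (𝓝 |Ψ M - M w|) :=
    (((M.continuous.tendsto w).comp h1).const_sub _).abs
  have h3 := le_of_tendsto_of_tendsto' h2 tendsto_one_div_add_atTop_nhds_zero_nat hvM
  exact sub_eq_zero.1 (abs_eq_zero.1 (le_antisymm h3 (abs_nonneg _)))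

theorem reflexive_uc' [CompleteSpace W] [UniformConvexSpace W]
    (Ψ : StrongDual ℝ (StrongDual ℝ W)) : ∃ w : W, ∀ L : StrongDual ℝ W, Ψ L = L w := by
  rcases eq_or_ne Ψ 0 with h | h
  · exact ⟨0, fun L => by simp [h]⟩
  obtain ⟨c, hc⟩ : ∃ c : ℝ, c = ‖Ψ‖ := ⟨_, rfl⟩
  have hc0 : 0 < c := by
    rw [hc]; exact lt_of_le_of_ne (norm_nonneg _) fun h0 => h (norm_eq_zero.1 h0.symm)
  obtain ⟨w, hw⟩ := reflexive_uc (c⁻¹ • Ψ) (by
    rw [norm_smul, Real.norm_eq_abs, abs_of_pos (inv_pos.2 hc0), ← hc, inv_mul_cancel₀ hc0.ne'])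
  refine ⟨c • w, fun L => ?_⟩
  have h1 := hw L
  rw [smul_apply, smul_eq_mul, inv_mul_eq_iff_eq_mul₀ hc0.ne'] at h1
  rw [map_smul, smul_eq_mul, h1]

/-- bounded sequences in a uniformly smooth Banach space have weak limits along the ultrafilter -/
theorem exists_wl [CompleteSpace E] (h : SmoothU E) {x : ℕ → E} {M : ℝ} (hx : ∀ n, ‖x n‖ ≤ M) :
    ∃ v, WL x v := by
  classical
  have := dual_uc h
  have hb : ∀ φ : StrongDual ℝ E, Tendsto (fun n => φ (x n)) U0 (𝓝 (ulim fun n => φ (x n))) :=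
    fun φ => ulim_spec (lo := -(‖φ‖ * M)) (hi := ‖φ‖ * M) (Eventually.of_forall fun n => by
      have h1 := (φ.le_opNorm (x n)).trans (mul_le_mul_of_nonneg_left (hx n) (norm_nonneg φ))
      rw [Real.norm_eq_abs, abs_le] at h1
      exact ⟨h1.1, h1.2⟩)
  let Λ : StrongDual ℝ (StrongDual ℝ E) := LinearMap.mkContinuous
    { toFun := fun φ => ulim fun n => φ (x n)
      map_add' := fun φ ψ => ulim_eq (by simpa using (hb φ).add (hb ψ))
      map_smul' := fun c φ => ulim_eq (by simpa using (hb φ).const_mul c) } M fun φ => by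
    rw [mul_comm]
    refine le_of_tendsto (hb φ).norm (Eventually.of_forall fun n => ?_)
    exact (φ.le_opNorm (x n)).trans (mul_le_mul_of_nonneg_left (hx n) (norm_nonneg φ))
  set ι := inclusionInDoubleDualLi ℝ (E := E)
  have hclosed : IsClosed (Set.range ι) :=
    ι.isometry.isUniformInducing.isComplete_range.isClosed
  have hconv : Convex ℝ (Set.range ι) := by
    rw [← Set.image_univ]; exact convex_univ.linear_image ι.toLinearMap
  have hmem : Λ ∈ Set.range ι := by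
    by_contra hnot
    obtain ⟨g, u, hg, hgΛ⟩ := geometric_hahn_banach_closed_point hconv hclosed hnot
    have hzero : ∀ v, g (ι v) = 0 := by
      intro v
      by_contra hne
      have h1 := hg (ι ((u / g (ι v)) • v)) ⟨_, rfl⟩
      rw [map_smul, map_smul, smul_eq_mul, div_mul_cancel₀ _ hne] at h1
      exact lt_irrefl u h1
    have hu : 0 < u := by
      have := hg (ι 0) ⟨0, rfl⟩
      rwa [hzero] at this
    obtain ⟨φ, hφ⟩ := reflexive_uc' (W := StrongDual ℝ E) g
    have hφ0 : φ = 0 := by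
      ext v
      exact (hφ (ι v)).symm.trans (hzero v)
    have h2 := hφ Λ
    rw [hφ0, map_zero] at h2
    linarith
  obtain ⟨v, hv⟩ := hmem
  refine ⟨v, fun φ => ?_⟩
  have e : φ v = ulim fun n => φ (x n) := by
    exact congrArg (fun L : StrongDual ℝ (StrongDual ℝ E) => L φ) hv
  rw [e]
  exact hb φ

end Vale.Agent.P084.Asym
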