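import Vale.Agent.P084.Smooth.Geom
import Vale.Agent.P084.Smooth.Near
import Vale.Agent.P084.Asym.Reflexive

/-!
P084, asymptotic classes: geometry of a uniformly smooth space, and the standing hypotheses on a
sphere isometry.
-/

open Filter Topology Metric

namespace Vale.Agent.P084.Asym

open Vale.Agent.P084.Smooth

universe u v

variable {X : Type u} [NormedAddCommGroup X] [NormedSpace ℝ X]
  {Y : Type v} [NormedAddCommGroup Y] [NormedSpace ℝ Y]

/-- a smooth space has one norming functional at each point -/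
theorem J_uniq (h : SmoothU X) {x : X} (hx : x ≠ 0) {ψ : StrongDual ℝ X}
    (hψn : ∀ a, ψ a ≤ ‖a‖) (hψx : ψ x = ‖x‖) : ψ = J x := by
  have key : ∀ k, ψ k ≤ J x k := by
    intro k
    refine le_of_forall_pos_le_add fun η hη => ?_
    obtain ⟨δ, hδ, H⟩ := upper h (show (0 : ℝ) < η / (‖k‖ + 1) by positivity)
    have hn : 0 < ‖x‖ := norm_pos_iff.2 hx
    set t := δ * ‖x‖ / (‖k‖ + 1) with ht
    have ht0 : 0 < t := by positivity
    have htk : ‖t • k‖ = t * ‖k‖ := norm_smul_of_nonneg ht0.le _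
    have h1 := H x (t • k) (by
      rw [htk, ht, div_mul_eq_mul_div, div_le_iff₀ (by positivity)]
      exact mul_le_mul_of_nonneg_left (by linarith) (by positivity))
    have h2 := hψn (x + t • k)
    rw [map_add, map_smul, smul_eq_mul, hψx] at h2
    rw [map_smul, smul_eq_mul, htk] at h1
    have h3 : η / (‖k‖ + 1) * ‖k‖ ≤ η := by
      rw [div_mul_eq_mul_div, div_le_iff₀ (by positivity)]
      nlinarith
    have h4 := mul_le_mul_of_nonneg_left h3 ht0.le
    exact le_of_mul_le_mul_left (by linarith) ht0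
  ext k
  have h1 := key k
  have h2 := key (-k)
  simp only [map_neg] at h2
  linarith

theorem J_neg_eq (h : SmoothU X) {x : X} (hx : x ≠ 0) : J (-x) = -J x := by
  symm
  refine J_uniq h (neg_ne_zero.2 hx) (fun a => ?_) ?_
  · rw [neg_apply]; linarith [neg_le_J x a]
  · rw [neg_apply, map_neg, neg_neg, J_self, norm_neg]

theorem J_smul_eq (h : SmoothU X) {x : X} (hx : x ≠ 0) {c : ℝ} (hc : 0 < c) : J (c • x) = J x := by
  symm
  refine J_uniq h (smul_ne_zero hc.ne' hx) (J_le x) ?_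
  rw [map_smul, smul_eq_mul, J_self, norm_smul_of_nonneg hc.le]

theorem J_flip (h : SmoothU X) {a b : X} (hab : a ≠ b) : J (b - a) = -J (a - b) := by
  rw [← neg_sub a b, J_neg_eq h (sub_ne_zero.2 hab)]

/-- points of the sphere at distance two have opposite functionals -/
theorem J_dist_two (h : SmoothU X) {a b : X} (ha : ‖a‖ = 1) (hb : ‖b‖ = 1) (hab : ‖a + b‖ = 2) :
    J a b = 1 ∧ J a = J b := by
  have h1 := J_self (a + b)
  rw [map_add, hab] at h1
  have h2 := J_le (a + b) a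
  have h3 := J_le (a + b) b
  rw [ha] at h2
  rw [hb] at h3
  have hne : ∀ x : X, ‖x‖ = 1 → x ≠ 0 := fun x hx => norm_ne_zero_iff.1 (by rw [hx]; norm_num)
  have ea := J_uniq h (hne a ha) (J_le (a + b)) (by rw [ha]; linarith)
  have eb := J_uniq h (hne b hb) (J_le (a + b)) (by rw [hb]; linarith)
  refine ⟨?_, ea ▸ eb⟩
  rw [← ea]; linarith

/-- nearly common norming functionals are near each other -/
theorem J_close (h : SmoothU X) {ε : ℝ} (hε : 0 < ε) :
    ∃ δ : ℝ, 0 < δ ∧ ∀ z w : X, ‖z‖ = 1 → ‖w‖ = 1 → 1 - δ ≤ J z w →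
      ∀ k, |J z k - J w k| ≤ ε * ‖k‖ := by
  obtain ⟨t, ht, H⟩ := upper h (half_pos hε)
  refine ⟨t * ε / 2, by positivity, fun z w _ hw hzw => ?_⟩
  have key : ∀ k, J z k - J w k ≤ ε * ‖k‖ := by
    intro k
    rcases eq_or_ne k 0 with rfl | hk
    · simp
    have hk' : 0 < ‖k‖ := norm_pos_iff.2 hk
    set s := t / ‖k‖ with hs
    have hs0 : 0 < s := by positivity
    have hsk : ‖s • k‖ = t := by rw [norm_smul_of_nonneg hs0.le, hs, div_mul_cancel₀ _ hk'.ne']
    have h1 := H w (s • k) (by rw [hsk, hw, mul_one])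
    have h2 := J_le z (w + s • k)
    rw [map_add, map_smul, smul_eq_mul] at h2
    rw [map_smul, smul_eq_mul, hw, hsk] at h1
    have e : t = s * ‖k‖ := by rw [hs, div_mul_cancel₀ _ hk'.ne']
    have h3 : s * (J z k - J w k) ≤ s * (ε * ‖k‖) := by
      rw [← mul_left_comm ε, ← e]; linarith
    exact le_of_mul_le_mul_left h3 hs0
  intro k
  have h1 := key k
  have h2 := key (-k)
  rw [map_neg, map_neg, norm_neg] at h2
  exact abs_le.2 ⟨by linarith, by linarith⟩

/-- a transversal chord is long and transversal at its far end -/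
theorem chord_end (h : SmoothU X) {τ : ℝ} (hτ : 0 < τ) :
    ∃ κ : ℝ, 0 < κ ∧ κ ≤ 1 ∧ ∀ z w : X, ‖z‖ = 1 → ‖w‖ = 1 → τ ≤ J z (z - w) →
      τ ≤ ‖z - w‖ ∧ κ ≤ J w (‖z - w‖⁻¹ • (w - z)) := by
  obtain ⟨t, ht, H⟩ := upper h (show 0 < τ / 4 by positivity)
  refine ⟨min 1 (t * τ / 8), by positivity, min_le_left _ _, fun z w hz hw hzw => ?_⟩
  have hL : τ ≤ ‖z - w‖ := hzw.trans (J_le _ _)
  refine ⟨hL, (min_le_right _ _).trans ?_⟩
  set L := ‖z - w‖ with hLdef
  have hL0 : 0 < L := hτ.trans_le hL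
  have hL2 : L ≤ 2 := (norm_sub_le z w).trans (by rw [hz, hw]; norm_num)
  set d := L⁻¹ • (z - w) with hd
  have hLd : L • d = z - w := smul_inv_smul₀ hL0.ne' _
  have hdn : ‖d‖ = 1 := by
    rw [hd, norm_smul_of_nonneg (inv_nonneg.2 hL0.le), inv_mul_cancel₀ hL0.ne']
  have hJd : τ / 2 ≤ J z d := by
    rw [hd, map_smul, smul_eq_mul, ← div_eq_inv_mul, le_div_iff₀ hL0]
    nlinarith
  have low : ∀ s : ℝ, 0 ≤ s → s ≤ t → ‖z - s • d‖ ≤ 1 - s * τ / 4 := by
    intro s hs hst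
    have h1 := H z (-(s • d)) (by rw [norm_neg, norm_smul_of_nonneg hs, hdn, hz, mul_one, mul_one]; exact hst)
    rw [← sub_eq_add_neg, map_neg, map_smul, norm_neg, norm_smul_of_nonneg hs, hdn, hz,
      smul_eq_mul] at h1
    nlinarith
  have htL : t < L := by
    by_contra hc
    push Not at hc
    have h1 := low L hL0.le hc
    rw [hLd, sub_sub_cancel, hw] at h1
    nlinarith
  have h1 := (J_le w (z - t • d)).trans (low t ht.le le_rfl)
  rw [show z - t • d = w + (L - t) • d by rw [sub_smul, hLd]; abel, map_add, J_self, hw,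
    map_smul, smul_eq_mul] at h1
  rw [show L⁻¹ • (w - z) = -d by rw [hd, ← smul_neg, neg_sub], map_neg]
  have : 0 ≤ t * τ := by positivity
  nlinarith

/-- functionals of directions pointing into the ball separate -/
theorem sep (h : SmoothU Y) {a k : Y} {B : ℝ} (ha : ‖a‖ = 1)
    (H : ∀ e : Y, ‖e‖ = 1 → 1 / 10 ≤ J a e → |J e k| ≤ B) : ‖k‖ ≤ 7 * B := by
  have hB : 0 ≤ B :=
    (abs_nonneg _).trans (H a ha (by rw [J_self, ha]; norm_num))
  rcases eq_or_ne k 0 with rfl | hk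
  · simpa using hB
  wlog hpos : 0 ≤ J a k generalizing k
  · have := this (k := -k) (fun e he he' => by rw [map_neg, abs_neg]; exact H e he he')
      (neg_ne_zero.2 hk) (by rw [map_neg]; linarith)
    rwa [norm_neg] at this
  have hk' : 0 < ‖k‖ := norm_pos_iff.2 hk
  set w := (3 * ‖k‖) • a + (7 : ℝ) • k with hw
  have hw1 : 3 * ‖k‖ ≤ J a w := by
    rw [hw, map_add, map_smul, map_smul, J_self, ha, smul_eq_mul, smul_eq_mul]; linarith
  have hw2 : ‖w‖ ≤ 10 * ‖k‖ := by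
    refine (norm_add_le _ _).trans ?_
    rw [norm_smul_of_nonneg (by positivity), norm_smul_of_nonneg (by norm_num), ha]; linarith
  have hw4 : 4 * ‖k‖ ≤ ‖w‖ := by
    have := norm_sub_le_norm_add ((7 : ℝ) • k) ((3 * ‖k‖) • a)
    rw [norm_smul_of_nonneg (by norm_num), norm_smul_of_nonneg (by positivity), ha, add_comm,
      ← hw] at this
    linarith
  have hwp : 0 < ‖w‖ := by linarith
  have he := norm_smul_inv_norm (𝕜 := ℝ) (norm_pos_iff.1 hwp)
  have h1 := H (‖w‖⁻¹ • w) (by simpa using he) (by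
    rw [map_smul, smul_eq_mul, ← div_eq_inv_mul, le_div_iff₀ hwp]; linarith)
  rw [J_smul_eq h (norm_pos_iff.1 hwp) (inv_pos.2 hwp)] at h1
  have h2 := J_self w
  nth_rw 2 [hw] at h2
  rw [map_add, map_smul, map_smul, smul_eq_mul, smul_eq_mul] at h2
  have h3 : 3 * ‖k‖ * J w a ≤ 3 * ‖k‖ * 1 :=
    mul_le_mul_of_nonneg_left ((J_le w a).trans ha.le) (by positivity)
  linarith [(abs_le.1 h1).2]

/-- transversal chords go to transversal chords -/
def Adm (f : sphere (0 : X) 1 ≃ᵢ sphere (0 : Y) 1) : Prop :=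
  ∀ τ : ℝ, 0 < τ → ∃ τ' : ℝ, 0 < τ' ∧ ∀ z w : sphere (0 : X) 1,
    τ ≤ J (z : X) ((z : X) - w) → τ' ≤ J (f z : Y) ((f z : Y) - f w)

/-- the standing hypotheses -/
structure Reg (f : sphere (0 : X) 1 ≃ᵢ sphere (0 : Y) 1) (p C : ℝ) : Prop where
  hp : 1 < p
  hC : 1 ≤ C
  sX : SmoothU X
  sY : SmoothU Y
  gX : ∀ r, 0 ≤ r → gain X r ≤ C * r ^ p
  gY : ∀ r, 0 ≤ r → gain Y r ≤ C * r ^ p
  adm : Adm f
  adm' : Adm f.symm

theorem Reg.symm {f : sphere (0 : X) 1 ≃ᵢ sphere (0 : Y) 1} {p C : ℝ} (h : Reg f p C) :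
    Reg f.symm p C :=
  ⟨h.hp, h.hC, h.sY, h.sX, h.gY, h.gX, h.adm', h.adm⟩

/-- every direction into the ball at an image point is the direction of a chord image -/
theorem chord_back {f : sphere (0 : X) 1 ≃ᵢ sphere (0 : Y) 1} {p C : ℝ} (R : Reg f p C)
    {τ : ℝ} (hτ : 0 < τ) :
    ∃ τ' : ℝ, 0 < τ' ∧ ∀ (z : sphere (0 : X) 1) (e : Y), ‖e‖ = 1 → τ ≤ J (f z : Y) e →
      ∃ (w : sphere (0 : X) 1) (L : ℝ), 0 < L ∧ τ' ≤ J (z : X) ((z : X) - w) ∧
        (f z : Y) - f w = L • e := by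
  obtain ⟨l, hl, H⟩ := exists_chord R.sY hτ
  obtain ⟨τ', hτ', hadm⟩ := R.adm' (l * τ) (by positivity)
  refine ⟨τ', hτ', fun z e he hze => ?_⟩
  obtain ⟨L, hL1, -, hL⟩ := H (f z : Y) e (sph_norm _) he hze
  obtain ⟨w, hw⟩ : ∃ w : sphere (0 : X) 1, (f w : Y) = (f z : Y) - L • e :=
    ⟨f.symm ⟨(f z : Y) - L • e, mem_sphere_zero_iff_norm.2 hL⟩, by simp⟩
  refine ⟨w, L, hl.trans_le hL1, ?_, by rw [hw, sub_sub_cancel]⟩
  have h1 := hadm (f z) (f w) (by
    rw [hw, sub_sub_cancel, map_smul, smul_eq_mul]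
    exact mul_le_mul hL1 hze hτ.le (hl.le.trans hL1))
  simpa using h1

end Vale.Agent.P084.Asym
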