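import Vale.Agent.P084.Asym.Shift
import Vale.Agent.P084.Smooth.Upper

/-!
P084, asymptotic classes: a state next to one end of a transversal chord does not separate the two
norming functionals of the chord.
-/

open Filter Topology Metric

namespace Vale.Agent.P084.Asym

open Vale.Agent.P084.Smooth

universe u v

variable {X : Type u} [NormedAddCommGroup X] [NormedSpace ℝ X]
  {Y : Type v} [NormedAddCommGroup Y] [NormedSpace ℝ Y]
  {f : sphere (0 : X) 1 ≃ᵢ sphere (0 : Y) 1} {p C : ℝ}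

theorem exists_st [CompleteSpace Y] (R : Reg f p C) {r : ℝ} {x : ℕ → X} {v : X}
    (hx : ∀ᶠ n in (U0 : Filter ℕ), ‖x n‖ = 1) (hv : WL x v) (hr : rad x ≤ r) :
    ∃ st : St f r, st.x = x ∧ st.v = v := by
  classical
  set y : ℕ → Y := fun n =>
    if h : ‖x n‖ = 1 then (f ⟨x n, mem_sphere_zero_iff_norm.2 h⟩ : Y) else 0 with hy
  obtain ⟨u, hu⟩ := exists_wl R.sY (x := y) (M := 1) fun n => by
    simp only [hy]
    split
    · exact (sph_norm _).le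
    · simp
  refine ⟨⟨x, y, v, u, hx.mono fun n hn => ⟨⟨x n, mem_sphere_zero_iff_norm.2 hn⟩, rfl, ?_⟩, hv, hu,
    hr⟩, rfl, rfl⟩
  simp only [hy, dif_pos hn]

theorem coef_nonneg (R : Reg f p C) {τ : ℝ} (hτ : 0 < τ) : 0 ≤ C * τ ^ (1 - p) :=
  mul_nonneg (by linarith [R.hC]) (Real.rpow_nonneg hτ.le _)

/-- one translation in the source -/
theorem source_step [CompleteSpace X] [CompleteSpace Y] (R : Reg f p C) {τ : ℝ} (hτ : 0 < τ) :
    ∃ σ : ℝ, 0 < σ ∧ ∃ A : ℝ, 1 ≤ A ∧ ∃ D : ℝ, 0 ≤ D ∧ ∀ (z w : sphere (0 : X) 1),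
      τ ≤ J (z : X) ((z : X) - w) → ∀ (r G c : ℝ) (st : St f r), 0 ≤ r → r ≤ σ → C * r ^ p ≤ G →
        0 < G → A * (‖st.v - z‖ + G) ≤ σ → 0 ≤ c → c ≤ 1 →
        ∃ st' : St f (c * r), ‖st'.v - w‖ + G ≤ A * (‖st.v - z‖ + G) ∧
          ‖st'.u - (f w : Y)‖ + G ≤ A * (‖st.v - z‖ + G) ∧
          phi z w st ≤ phi z w st' + D * ((1 - c) * r) ^ p := by
  obtain ⟨κ, hκ, hκ1, hend⟩ := chord_end R.sX hτ
  obtain ⟨σ₁, hσ₁, hstep⟩ := shift R.sX hτ hκ hκ1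
  obtain ⟨σ₂, hσ₂, K, hK, hnear⟩ := near R
  refine ⟨min σ₁ σ₂, lt_min hσ₁ hσ₂, (K + 1) * (2 + 4 / κ), ?_, C * (τ / 2) ^ (1 - p),
    coef_nonneg R (by positivity), ?_⟩
  · have : 0 ≤ 4 / κ := by positivity
    nlinarith
  intro z w hzw r G c st hr hrσ hgG hG hsmall hc hc1
  obtain ⟨hτL, hκw⟩ := hend z w (sph_norm z) (sph_norm w) hzw
  simp only [le_min_iff] at hrσ hsmall
  set E := ‖st.v - z‖ with hE
  have hE0 : 0 ≤ E := norm_nonneg _
  have h4 : 0 ≤ 4 / κ := by positivity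
  have hEG : E + G ≤ (K + 1) * (2 + 4 / κ) * (E + G) :=
    le_mul_of_one_le_left (by linarith) (by nlinarith)
  obtain ⟨y, s, hy1, hyw, hyr, hyb, hyd⟩ := hstep z w (sph_norm z) (sph_norm w) hτL hκw
    st.x st.v r G c st.x_one st.wx st.hr hr hrσ.1 ((R.gX r hr).trans hgG) hG (by linarith)
    (by linarith) hc hc1
  obtain ⟨st', hx', hv'⟩ := exists_st R hy1 hyw hyr
  subst hx'
  rw [← hv'] at hyb hyw
  set E₁ := ‖st'.v - w‖
  have hE₁ : E₁ + G ≤ (2 + 4 / κ) * (E + G) := by rw [add_mul, two_mul]; linarith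
  have hB : (2 + 4 / κ) * (E + G) ≤ (K + 1) * (2 + 4 / κ) * (E + G) := by
    rw [mul_assoc]; exact le_mul_of_one_le_left (by positivity) (by linarith)
  have hcr : c * r ≤ r := mul_le_of_le_one_left hr hc1
  have hcr0 : 0 ≤ c * r := mul_nonneg hc hr
  have hn := hnear (c * r) st' w hcr0 (hcr.trans hrσ.2) (by linarith)
  have hcG : (c * r) ^ p ≤ G := by
    refine le_trans (Real.rpow_le_rpow hcr0 hcr (by linarith [R.hp])) (le_trans ?_ hgG)
    exact le_mul_of_one_le_left (Real.rpow_nonneg hr p) R.hC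
  refine ⟨st', hE₁.trans hB, ?_, ?_⟩
  · have h1 : K * (E₁ + (c * r) ^ p) ≤ K * ((2 + 4 / κ) * (E + G)) :=
      mul_le_mul_of_nonneg_left (by linarith) (by linarith)
    have : G ≤ (2 + 4 / κ) * (E + G) := by nlinarith
    rw [mul_assoc, add_mul, one_mul]
    linarith
  · set χ := J ((f z : Y) - f w)
    have hzw0 : (z : X) - w ≠ 0 := norm_pos_iff.1 (hτ.trans_le hτL)
    have e1 : J ((z : X) - w) st'.v = J ((z : X) - w) st.v - s := by
      rw [hv', map_sub, map_smul, map_smul, J_self, smul_eq_mul, smul_eq_mul,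
        inv_mul_cancel₀ (norm_ne_zero_iff.2 hzw0), mul_one]
    have hb : Bdd fun n => st.y n - st'.y n := by
      simpa [sub_eq_add_neg] using
        (bdd_sphere st.y_one).add ((bdd_sphere st'.y_one).smul (-1 : ℝ))
    have e2 : χ (st.u - st'.u) ≤ s + τ / 2 * gain X ((1 - c) * r / (τ / 2)) := by
      refine le_trans (J_le _ _) ((WL.norm_le hb fun φ => ?_).trans (le_of_eq_of_le ?_ hyd))
      · simpa [map_sub] using (st.wy φ).sub (st'.wy φ)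
      · refine ulim_congr ((st.img.and st'.img).mono fun n hn => ?_)
        obtain ⟨⟨a, ha, ha'⟩, b, hb', hb''⟩ := hn
        simp only [ha, ha', hb', hb'', iso_norm_sub]
    have e3 := gain_scaled R.gX (show 0 < τ / 2 by positivity)
      (show 0 ≤ (1 - c) * r from mul_nonneg (by linarith) hr)
    simp only [phi]
    rw [e1]
    rw [map_sub] at e2
    linarith

/-- two translations, back to the first end -/
theorem double_step [CompleteSpace X] [CompleteSpace Y] (R : Reg f p C) {τ : ℝ} (hτ : 0 < τ) :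
    ∃ σ : ℝ, 0 < σ ∧ ∃ A : ℝ, 1 ≤ A ∧ ∃ D : ℝ, 0 ≤ D ∧ ∀ (z w : sphere (0 : X) 1),
      τ ≤ J (z : X) ((z : X) - w) → ∀ (r G c : ℝ) (st : St f r), 0 ≤ r → r ≤ σ → C * r ^ p ≤ G →
        0 < G → A * (‖st.v - z‖ + G) ≤ σ → 0 ≤ c → c ≤ 1 →
        ∃ st' : St f (c * (c * r)), ‖st'.v - z‖ + G ≤ A * (‖st.v - z‖ + G) ∧
          phi z w st ≤ phi z w st' + D * ((1 - c) * r) ^ p := by
  obtain ⟨κ, hκ, -, hend⟩ := chord_end R.sX hτ
  obtain ⟨τ', hτ', hadm⟩ := R.adm (κ * τ) (by positivity)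
  obtain ⟨σ₁, hσ₁, A₁, hA₁, D₁, hD₁, h₁⟩ := source_step R hτ
  obtain ⟨σ₂, hσ₂, A₂, hA₂, D₂, hD₂, h₂⟩ := source_step R.symm hτ'
  refine ⟨min σ₁ σ₂, lt_min hσ₁ hσ₂, A₂ * A₁, by nlinarith, D₁ + D₂, by positivity, ?_⟩
  intro z w hzw r G c st hr hrσ hgG hG hsmall hc hc1
  obtain ⟨hτL, hκw⟩ := hend z w (sph_norm z) (sph_norm w) hzw
  have hL0 : 0 < ‖(z : X) - w‖ := hτ.trans_le hτL
  have hwz : τ' ≤ J (f w : Y) ((f w : Y) - f z) := hadm w z (by
    rw [map_smul, smul_eq_mul, ← div_eq_inv_mul, le_div_iff₀ hL0] at hκw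
    exact (mul_le_mul_of_nonneg_left hτL hκ.le).trans hκw)
  simp only [le_min_iff] at hrσ hsmall
  have hX0 : 0 ≤ A₁ * (‖st.v - z‖ + G) := by positivity
  have hs1 : A₁ * (‖st.v - z‖ + G) ≤ A₂ * A₁ * (‖st.v - z‖ + G) := by
    rw [mul_assoc]; exact le_mul_of_one_le_left hX0 hA₂
  obtain ⟨st₁, hv₁, hu₁, hp₁⟩ := h₁ z w hzw r G c st hr hrσ.1 hgG hG (by linarith) hc hc1
  have hcr : c * r ≤ r := mul_le_of_le_one_left hr hc1
  have hcr0 : 0 ≤ c * r := mul_nonneg hc hr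
  have hcG : C * (c * r) ^ p ≤ G :=
    (mul_le_mul_of_nonneg_left (Real.rpow_le_rpow hcr0 hcr (by linarith [R.hp]))
      (by linarith [R.hC])).trans hgG
  have hs2 : A₂ * (‖st₁.u - (f w : Y)‖ + G) ≤ A₂ * A₁ * (‖st.v - z‖ + G) := by
    rw [mul_assoc]; exact mul_le_mul_of_nonneg_left hu₁ (by linarith)
  obtain ⟨st₂, hu₂, hv₂, hp₂⟩ := h₂ (f w) (f z) hwz (c * r) G c st₁.swap hcr0 (hcr.trans hrσ.2)
    hcG hG (by show A₂ * (‖st₁.u - (f w : Y)‖ + G) ≤ σ₂; linarith) hc hc1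
  obtain ⟨st₃, h3v, h3u⟩ : ∃ st₃ : St f (c * (c * r)), st₃.v = st₂.u ∧ st₃.u = st₂.v :=
    ⟨st₂.swap, rfl, rfl⟩
  refine ⟨st₃, ?_, ?_⟩
  · have h : ‖st₂.u - (f.symm (f z) : X)‖ + G ≤ A₂ * (‖st₁.u - (f w : Y)‖ + G) := hv₂
    rw [IsometryEquiv.symm_apply_apply] at h
    rw [h3v]
    exact h.trans hs2
  · have hXne : (z : X) ≠ (w : X) := sub_ne_zero.1 (norm_pos_iff.1 hL0)
    have hYne : (f z : Y) ≠ (f w : Y) :=
      sub_ne_zero.1 (norm_pos_iff.1 (by rw [iso_norm_sub]; exact hL0))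
    have hp : phi z w st₁ ≤ phi z w st₃ + D₂ * ((1 - c) * (c * r)) ^ p := by
      simp only [phi, St.swap, IsometryEquiv.symm_apply_apply, h3v, h3u] at hp₂ ⊢
      rw [J_flip R.sX hXne, J_flip R.sY hYne] at hp₂
      simp only [neg_apply] at hp₂
      linarith
    have h0 : 0 ≤ (1 - c) * (c * r) := mul_nonneg (by linarith) hcr0
    have := mul_le_mul_of_nonneg_left
      (Real.rpow_le_rpow h0 (mul_le_mul_of_nonneg_left hcr (show 0 ≤ 1 - c by linarith))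
        (show (0 : ℝ) ≤ p by linarith [R.hp])) hD₂
    linarith

/-- repeated double steps -/
theorem iterate {z w : sphere (0 : X) 1} {A σ G c R₀ cost : ℝ} (hA : 1 ≤ A) (hG : 0 < G)
    (hc : 0 ≤ c) (hc1 : c ≤ 1)
    (hds : ∀ (ρ : ℝ) (s : St f ρ), 0 ≤ ρ → ρ ≤ R₀ → A * (‖s.v - z‖ + G) ≤ σ →
      ∃ s' : St f (c * (c * ρ)), ‖s'.v - z‖ + G ≤ A * (‖s.v - z‖ + G) ∧
        phi z w s ≤ phi z w s' + cost) :
    ∀ (m : ℕ) (ρ : ℝ) (s : St f ρ), 0 ≤ ρ → ρ ≤ R₀ → A ^ m * (‖s.v - z‖ + G) ≤ σ →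
      ∃ (ρ' : ℝ) (s' : St f ρ'), 0 ≤ ρ' ∧ ρ' ≤ c ^ (2 * m) * ρ ∧
        ‖s'.v - z‖ + G ≤ A ^ m * (‖s.v - z‖ + G) ∧ phi z w s ≤ phi z w s' + m * cost := by
  intro m
  induction m with
  | zero => exact fun ρ s h0 _ _ => ⟨ρ, s, h0, by simp, by simp, by simp⟩
  | succ m ih =>
    intro ρ s h0 hρ hsm
    have hEG : 0 ≤ ‖s.v - z‖ + G := by positivity
    have hA1 : A * (‖s.v - z‖ + G) ≤ A ^ (m + 1) * (‖s.v - z‖ + G) :=
      mul_le_mul_of_nonneg_right (le_self_pow₀ hA (by omega)) hEG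
    obtain ⟨s₁, hs₁, hp₁⟩ := hds ρ s h0 hρ (hA1.trans hsm)
    have hcc : c * (c * ρ) ≤ ρ :=
      (mul_le_of_le_one_left (mul_nonneg hc h0) hc1).trans (mul_le_of_le_one_left h0 hc1)
    have hA2 : A ^ m * (‖s₁.v - z‖ + G) ≤ A ^ (m + 1) * (‖s.v - z‖ + G) := by
      rw [pow_succ, mul_assoc]; exact mul_le_mul_of_nonneg_left hs₁ (by positivity)
    obtain ⟨ρ', s', h0', hρ', hv', hp'⟩ :=
      ih (c * (c * ρ)) s₁ (by positivity) (hcc.trans hρ) (hA2.trans hsm)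
    refine ⟨ρ', s', h0', ?_, hv'.trans hA2, ?_⟩
    · rw [show 2 * (m + 1) = 2 * m + 1 + 1 by ring, pow_succ, pow_succ, mul_assoc, mul_assoc]
      exact hρ'
    · push_cast
      linarith

theorem key_upper [CompleteSpace X] [CompleteSpace Y] (R : Reg f p C) {τ η M : ℝ} (hτ : 0 < τ)
    (hη : 0 < η) (hM : 0 ≤ M) :
    ∃ r₀ : ℝ, 0 < r₀ ∧ ∀ (z w : sphere (0 : X) 1), τ ≤ J (z : X) ((z : X) - w) →
      ∀ (r : ℝ) (st : St f r), 0 < r → r ≤ r₀ → ‖st.v - z‖ ≤ M * r ^ p →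
        J ((f z : Y) - f w) (st.u - (f z : Y)) - J ((z : X) - w) (st.v - z) ≤ η * r ^ p := by
  have hp := R.hp
  have hC := R.hC
  obtain ⟨σ, hσ, A, hA, D, hD, hds⟩ := double_step R hτ
  obtain ⟨D₀, hD₀⟩ : ∃ D₀ : ℝ, D₀ = C * (τ / 2) ^ (1 - p) := ⟨_, rfl⟩
  have hD₀0 : 0 < D₀ := by rw [hD₀]; positivity
  obtain ⟨θ, hθ0, hθ1, hθD⟩ : ∃ θ : ℝ, 0 < θ ∧ θ ≤ 1 ∧ D₀ * θ ≤ η / 3 := by
    refine ⟨min 1 (η / (3 * D₀)), by positivity, min_le_left _ _, ?_⟩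
    refine (mul_le_mul_of_nonneg_left (min_le_right _ _) hD₀0.le).trans (le_of_eq ?_)
    field_simp
  obtain ⟨ε, hε0, hε1, hεD⟩ : ∃ ε : ℝ, 0 < ε ∧ ε ≤ 1 / 4 ∧
      ε ^ (p - 1) * (D + 1) ≤ η * θ / 6 := by
    refine ⟨min (1 / 4) ((η * θ / (6 * (D + 1))) ^ (1 / (p - 1))), by positivity,
      min_le_left _ _, ?_⟩
    have h1 : (min (1 / 4) ((η * θ / (6 * (D + 1))) ^ (1 / (p - 1)))) ^ (p - 1)
        ≤ η * θ / (6 * (D + 1)) := by
      refine (Real.rpow_le_rpow (by positivity) (min_le_right _ _) (by linarith)).trans (le_of_eq ?_)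
      rw [← Real.rpow_mul (by positivity), one_div_mul_cancel (by linarith), Real.rpow_one]
    refine (mul_le_mul_of_nonneg_right h1 (by linarith)).trans (le_of_eq ?_)
    field_simp
  obtain ⟨n, hpow, hcount⟩ := count_bound hθ0 hθ1 hε0 hε1
  obtain ⟨B, hB⟩ : ∃ B : ℝ, B = A ^ n * (M + C) := ⟨_, rfl⟩
  have hB0 : 0 < B := by rw [hB]; positivity
  obtain ⟨t, ht, hexp⟩ := upper R.sX (show 0 < η / (3 * B) by positivity)
  refine ⟨min (min 1 σ) (min (σ / B) (min (t * τ / B) (τ / (2 * B)))), by positivity, ?_⟩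
  intro z w hzw r st hr hr₀ hE
  simp only [le_min_iff] at hr₀
  obtain ⟨⟨hr1, hrσ⟩, hr₂, hr₃, hr₄⟩ := hr₀
  rw [le_div_iff₀ hB0] at hr₂ hr₃
  rw [le_div_iff₀ (by positivity)] at hr₄
  obtain ⟨P, hP⟩ : ∃ P : ℝ, P = r ^ p := ⟨_, rfl⟩
  have hP0 : 0 < P := by rw [hP]; positivity
  have hPr : P ≤ r := by
    rw [hP]
    simpa using Real.rpow_le_rpow_of_exponent_ge hr hr1 hp.le
  rw [← hP] at hE ⊢
  obtain ⟨cost, hcost⟩ : ∃ cost : ℝ, cost = D * (ε ^ p * P) := ⟨_, rfl⟩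
  have hc0 : 0 ≤ 1 - ε := by linarith
  have hG0 : 0 < C * P := by positivity
  have it := iterate (f := f) (z := z) (w := w) (σ := σ) (R₀ := r) (cost := cost) hA hG0 hc0
    (by linarith) (fun ρ s h0 hρ hsm => by
      have h1 : ρ ^ p ≤ P := by rw [hP]; exact Real.rpow_le_rpow h0 hρ (by linarith)
      obtain ⟨s', hs', hph⟩ := hds z w hzw ρ (C * P) (1 - ε) s h0 (hρ.trans hrσ)
        (mul_le_mul_of_nonneg_left h1 (by linarith)) hG0 hsm hc0 (by linarith)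
      refine ⟨s', hs', hph.trans (add_le_add le_rfl ?_)⟩
      rw [hcost, sub_sub_cancel, Real.mul_rpow hε0.le h0]
      gcongr)
  have hBP : A ^ n * (‖st.v - z‖ + C * P) ≤ B * P := by
    rw [hB, mul_assoc, add_mul]; gcongr
  have hBr : B * P ≤ B * r := mul_le_mul_of_nonneg_left hPr hB0.le
  obtain ⟨ρ, s, hρ0, hρ, hsv, hph⟩ := it n r st hr.le le_rfl (by linarith)
  have hρθ : ρ ≤ θ * r := hρ.trans (mul_le_mul_of_nonneg_right hpow hr.le)
  have hcostn : n * cost ≤ η / 3 * P := by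
    have e1 : ε ^ p = ε ^ (p - 1) * ε := by rw [← Real.rpow_add_one hε0.ne', sub_add_cancel]
    have h0 : 0 ≤ ε ^ (p - 1) := Real.rpow_nonneg hε0.le _
    have h1 : D * ε ^ (p - 1) ≤ η * θ / 6 := by linarith
    have h2 := mul_le_mul_of_nonneg_left h1 (show 0 ≤ (n : ℝ) * ε * P by positivity)
    have h3 := mul_le_mul_of_nonneg_right hcount (show 0 ≤ η / 6 * P by positivity)
    rw [hcost, e1]
    linarith
  have hh1 : ‖s.v - z‖ ≤ B * P := by linarith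
  obtain ⟨hτL, -⟩ : τ ≤ ‖(z : X) - w‖ ∧ True := ⟨hzw.trans (J_le _ _), trivial⟩
  have htl : t * τ ≤ t * ‖(z : X) - w‖ := mul_le_mul_of_nonneg_left hτL ht.le
  have he1' := hexp ((z : X) - w) (s.v - z) (by linarith)
  have he2 : η / (3 * B) * ‖s.v - z‖ ≤ η / 3 * P := by
    refine (mul_le_mul_of_nonneg_left hh1 (by positivity)).trans_eq ?_
    field_simp
  have hgain : τ / 2 * gain X (ρ / (τ / 2)) ≤ η / 3 * P := by
    refine (gain_scaled R.gX (by positivity) hρ0).trans ?_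
    have h1 : ρ ^ p ≤ θ * P := by
      refine (Real.rpow_le_rpow hρ0 hρθ (by linarith)).trans ?_
      rw [Real.mul_rpow hθ0.le hr.le, ← hP]
      refine mul_le_mul_of_nonneg_right ?_ hP0.le
      simpa using Real.rpow_le_rpow_of_exponent_ge hθ0 hθ1 hp.le
    rw [← hD₀]
    have := mul_le_mul_of_nonneg_left h1 hD₀0.le
    have := mul_le_mul_of_nonneg_right hθD hP0.le
    linarith
  have hb := base (gainFacts X) (f := f) (a := η / 3 * P) hτ hτL s (by linarith) (by linarith) hgain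
  simp only [phi] at hph hb
  rw [map_sub (J ((f z : Y) - f w)) st.u (f z : Y), map_sub (J ((z : X) - w)) st.v (z : X)]
  linarith

/-- the two functionals of a chord agree on states -/
theorem key [CompleteSpace X] [CompleteSpace Y] (R : Reg f p C) {τ η M : ℝ} (hτ : 0 < τ)
    (hη : 0 < η) (hM : 0 ≤ M) :
    ∃ r₀ : ℝ, 0 < r₀ ∧ ∀ (z w : sphere (0 : X) 1), τ ≤ J (z : X) ((z : X) - w) →
      ∀ (r : ℝ) (st : St f r), 0 < r → r ≤ r₀ → ‖st.v - z‖ ≤ M * r ^ p →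
        |J ((f z : Y) - f w) (st.u - (f z : Y)) - J ((z : X) - w) (st.v - z)| ≤ η * r ^ p := by
  obtain ⟨τ', hτ', hadm⟩ := R.adm τ hτ
  obtain ⟨σ, hσ, K, hK, hnear⟩ := near R
  obtain ⟨r₁, hr₁, h₁⟩ := key_upper R hτ hη hM
  obtain ⟨r₂, hr₂, h₂⟩ := key_upper R.symm hτ' hη (show 0 ≤ K * (M + 1) by positivity)
  refine ⟨min (min r₁ r₂) (min 1 (min σ (σ / (M + 1)))), by positivity,
    fun z w hzw r st hr hr₀ hE => ?_⟩
  simp only [le_min_iff] at hr₀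
  obtain ⟨⟨ha, hb⟩, h1r, hrσ, hrσ'⟩ := hr₀
  have hP0 : 0 ≤ r ^ p := Real.rpow_nonneg hr.le p
  have hPr : r ^ p ≤ r := by simpa using Real.rpow_le_rpow_of_exponent_ge hr h1r R.hp.le
  have hu : ‖st.u - (f z : Y)‖ ≤ K * (M + 1) * r ^ p := by
    refine (hnear r st z hr.le hrσ ?_).trans ?_
    · rw [le_div_iff₀ (by positivity)] at hrσ'
      have := mul_le_mul_of_nonneg_left hPr hM
      linarith
    · rw [mul_assoc, add_mul, one_mul]
      exact mul_le_mul_of_nonneg_left (by linarith) (by linarith)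
  have up := h₁ z w hzw r st hr ha hE
  have lo := h₂ (f z) (f w) (hadm z w hzw) r st.swap hr hb hu
  simp only [St.swap, IsometryEquiv.symm_apply_apply] at lo
  rw [abs_le]
  constructor <;> linarith

end Vale.Agent.P084.Asym
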