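import Vale.Agent.P084.Asym.Tests

/-!
P084, asymptotic classes: the derivative at a point maps it to its image, so the homogeneous
extension has derivatives of norm one and is linear.
-/

open Filter Topology Metric

namespace Vale.Agent.P084.Asym

open Vale.Agent.P084.Smooth

universe u v

variable {X : Type u} [NormedAddCommGroup X] [NormedSpace ℝ X]
  {Y : Type v} [NormedAddCommGroup Y] [NormedSpace ℝ Y]
  {f : sphere (0 : X) 1 ≃ᵢ sphere (0 : Y) 1} {p C : ℝ}

/-- a rough space has no facets: ends of transversal chords are dense -/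
theorem dense_transversal (hR : Rough X p) (z y : sphere (0 : X) 1) {δ : ℝ} (hδ : 0 < δ) :
    ∃ y' : sphere (0 : X) 1, ‖(y' : X) - y‖ ≤ δ ∧ 0 < J (z : X) ((z : X) - y') := by
  rcases lt_or_ge (J (z : X) (y : X)) 1 with hlt | hge
  · exact ⟨y, by simpa using hδ.le, by rw [map_sub, J_self, sph_norm]; linarith⟩
  obtain ⟨c, hc, hν⟩ := hR (y : X) (sph_norm y)
  obtain ⟨r, hr0, hr1, hrδ⟩ : ∃ r : ℝ, 0 < r ∧ r ≤ 1 ∧ 4 * r ≤ δ :=
    ⟨min 1 (δ / 4), by positivity, min_le_left _ _, by linarith [min_le_right 1 (δ / 4)]⟩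
  obtain ⟨ν, hb, hw, hr, hg⟩ := hν r hr0 hr1
  have hcr : 0 < c * r ^ p := by positivity
  have e1 := (hb.const_add (y : X)).tendsto_norm.eventually_const_lt
    (show 1 + c * r ^ p / 2 < ulim fun n => ‖(y : X) + ν n‖ by linarith)
  have e2 := hb.tendsto_norm.eventually_le_const
    ((null_norm_le hb hw hr).trans_lt (show r < 2 * r by linarith))
  have h0 : Tendsto (fun n => J (z : X) (ν n)) U0 (𝓝 0) := by simpa using hw (J (z : X))
  have e3 := h0.eventually_le_const (show (0 : ℝ) < c * r ^ p / 4 by linarith)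
  obtain ⟨n, ⟨hn1, hn2⟩, hn3⟩ := ((e1.and e2).and e3).exists
  obtain ⟨N, hN⟩ : ∃ N : ℝ, N = ‖(y : X) + ν n‖ := ⟨_, rfl⟩
  rw [← hN] at hn1
  have hN0 : 0 < N := by linarith
  obtain ⟨y', hy'⟩ : ∃ y' : sphere (0 : X) 1, (y' : X) = N⁻¹ • ((y : X) + ν n) :=
    ⟨⟨_, mem_sphere_zero_iff_norm.2 (by
      rw [norm_smul_of_nonneg (inv_nonneg.2 hN0.le), ← hN, inv_mul_cancel₀ hN0.ne'])⟩, rfl⟩
  refine ⟨y', ?_, ?_⟩
  · have h1 : ‖(y' : X) - ((y : X) + ν n)‖ = N - 1 := by
      rw [hy', show N⁻¹ • ((y : X) + ν n) - ((y : X) + ν n) = -((1 - N⁻¹) • ((y : X) + ν n)) by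
        module, norm_neg, norm_smul, ← hN, Real.norm_eq_abs,
        abs_of_nonneg (by rw [sub_nonneg]; exact inv_le_one_of_one_le₀ (by linarith)),
        sub_mul, inv_mul_cancel₀ hN0.ne', one_mul]
    have h2 := norm_sub_le_norm_sub_add_norm_sub (y' : X) ((y : X) + ν n) y
    rw [add_sub_cancel_left, h1] at h2
    have h3 : N ≤ 1 + ‖ν n‖ := by
      rw [hN]; exact (norm_add_le _ _).trans (by rw [sph_norm])
    linarith
  · have h1 : J (z : X) (y : X) ≤ 1 := (J_le _ _).trans (sph_norm y).le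
    rw [map_sub, J_self, sph_norm, hy', map_smul, smul_eq_mul, map_add, sub_pos,
      inv_mul_lt_iff₀ hN0]
    linarith

/-- the tests hold at every chord from `z` -/
theorem all_tests (R : Reg f p C) (hR : Rough X p) (z : sphere (0 : X) 1) {T : X ≃ₗᵢ[ℝ] Y}
    (hT : ∀ w : sphere (0 : X) 1, 0 < J (z : X) ((z : X) - w) →
        ∀ q : X, J ((f z : Y) - f w) (T q) = J ((z : X) - w) q)
    (y : sphere (0 : X) 1) (hy : (y : X) ≠ z) (q : X) :
    J ((f z : Y) - f y) (T q) = J ((z : X) - y) q := by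
  refine eq_of_forall_dist_le fun ε hε => ?_
  have hL : 0 < ‖(z : X) - y‖ := norm_pos_iff.2 (sub_ne_zero.2 (Ne.symm hy))
  obtain ⟨a, ha, HX⟩ := J_continuous R.sX (show 0 < ε / (2 * (‖q‖ + 1)) by positivity)
  obtain ⟨b, hb, HY⟩ := J_continuous R.sY (show 0 < ε / (2 * (‖q‖ + 1)) by positivity)
  obtain ⟨y', hy', hz⟩ := dense_transversal hR z y
    (show 0 < min a b * ‖(z : X) - y‖ by positivity)
  have h1 := HX ((z : X) - y) ((z : X) - y') (norm_pos_iff.1 hL) (by
    rw [sub_sub_sub_cancel_left]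
    exact hy'.trans (mul_le_mul_of_nonneg_right (min_le_left _ _) hL.le))
  have h2 := HY ((f z : Y) - f y) ((f z : Y) - f y')
    (norm_pos_iff.1 (by rw [iso_norm_sub]; exact hL)) (by
    rw [sub_sub_sub_cancel_left, iso_norm_sub, iso_norm_sub]
    exact hy'.trans (mul_le_mul_of_nonneg_right (min_le_right _ _) hL.le))
  have a1 := (ContinuousLinearMap.le_opNorm _ q).trans
    (mul_le_mul_of_nonneg_right h1 (norm_nonneg _))
  have a2 := (ContinuousLinearMap.le_opNorm _ (T q)).trans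
    (mul_le_mul_of_nonneg_right h2 (norm_nonneg _))
  rw [LinearIsometryEquiv.norm_map] at a2
  rw [sub_apply, Real.norm_eq_abs, abs_le] at a1 a2
  have h3 := hT y' hz q
  have h4 : ε / (2 * (‖q‖ + 1)) * ‖q‖ ≤ ε / 2 := by
    rw [div_mul_eq_mul_div, div_le_iff₀ (by positivity)]; nlinarith
  rw [Real.dist_eq, abs_le]
  constructor <;> linarith

/-- steps kept by the tests add up, so there is no step at all -/
theorem orbit_fixed {X : Type u} [NormedAddCommGroup X] [NormedSpace ℝ X] (hS : SmoothU X)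
    {h : sphere (0 : X) 1 → sphere (0 : X) 1}
    (hi : ∀ a b, ‖(h a : X) - h b‖ = ‖(a : X) - b‖) (z : sphere (0 : X) 1)
    (ht : ∀ y : sphere (0 : X) 1, (y : X) ≠ z →
      J ((z : X) - y) ((h z : X) - h y) = ‖(z : X) - y‖) : h z = z := by
  by_contra hne
  obtain ⟨o, hodef⟩ : ∃ o : ℕ → sphere (0 : X) 1, ∀ n, o n = h^[n] z :=
    ⟨fun n => h^[n] z, fun _ => rfl⟩
  have ho0 : o 0 = z := by rw [hodef]; rfl
  have hos : ∀ n, o (n + 1) = h (o n) := fun n => by
    rw [hodef, hodef, Function.iterate_succ_apply']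
  set a := (o 1 : X) - o 0 with ha
  have ha0 : 0 < ‖a‖ := by
    rw [norm_pos_iff, ha, sub_ne_zero]
    intro e
    rw [hos 0, ho0] at e
    exact hne (Subtype.ext e)
  have hstep : ∀ n, ‖(o (n + 1) : X) - o n‖ = ‖a‖ := by
    intro n
    induction n with
    | zero => rfl
    | succ n ih => rw [hos (n + 1), hos n, hi, ← hos n, ih]
  have hsum : ∀ n, J a ((o n : X) - o 0) = n * ‖a‖ ∧ ‖(o n : X) - o 0‖ ≤ n * ‖a‖ := by
    intro n
    induction n with
    | zero => simp
    | succ n ih =>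
      refine ⟨?_, ?_⟩
      · rcases Nat.eq_zero_or_pos n with rfl | hn
        · rw [zero_add, ← ha, J_self]; simp
        have hn' : ((n : ℝ)) * ‖a‖ > 0 := mul_pos (Nat.cast_pos.2 hn) ha0
        have hnorm : ‖(o n : X) - o 0‖ = n * ‖a‖ :=
          le_antisymm ih.2 (ih.1 ▸ J_le _ _)
        have hne' : (o n : X) - o 0 ≠ 0 := norm_pos_iff.1 (by rw [hnorm]; exact hn')
        have hJ := J_uniq hS hne' (J_le a) (by rw [ih.1, hnorm])
        have h1 := ht (o n) (by rw [← ho0]; exact sub_ne_zero.1 hne')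
        rw [J_flip hS (a := (o n : X)) (b := (z : X))
          (by rw [← ho0]; exact sub_ne_zero.1 hne'), neg_apply, ← ho0, ← hJ, ← hos 0, ← hos n,
          norm_sub_rev, hnorm] at h1
        rw [show (o (n + 1) : X) - o 0 = -((o (0 + 1) : X) - o (n + 1)) + a by rw [ha]; abel,
          map_add, map_neg, J_self, h1]
        push_cast; ring
      · refine (norm_sub_le_norm_sub_add_norm_sub _ (o n : X) _).trans ?_
        rw [hstep]; push_cast; linarith [ih.2]
  obtain ⟨n, hn⟩ := exists_nat_gt (2 / ‖a‖)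
  rw [div_lt_iff₀ ha0] at hn
  have h1 := (hsum n).1 ▸ J_le a ((o n : X) - o 0)
  have h2 := norm_sub_le (o n : X) (o 0)
  rw [sph_norm, sph_norm] at h2
  linarith

/-- the derivative at `z` maps `z` to its image -/
theorem T_self [CompleteSpace X] [CompleteSpace Y] (R : Reg f p C) (hR : Rough X p)
    (z : sphere (0 : X) 1) {T : X ≃ₗᵢ[ℝ] Y}
    (hT : ∀ w : sphere (0 : X) 1, 0 < J (z : X) ((z : X) - w) →
        ∀ q : X, J ((f z : Y) - f w) (T q) = J ((z : X) - w) q) : T z = (f z : Y) := by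
  obtain ⟨h, hh⟩ : ∃ h : sphere (0 : X) 1 → sphere (0 : X) 1,
      ∀ a, (h a : X) = T.symm (f a : Y) :=
    ⟨fun a => ⟨T.symm (f a : Y), mem_sphere_zero_iff_norm.2 (by
      rw [LinearIsometryEquiv.norm_map, sph_norm])⟩, fun _ => rfl⟩
  have hfix := orbit_fixed R.sX (h := h)
    (fun a b => by rw [hh, hh, ← map_sub, LinearIsometryEquiv.norm_map, iso_norm_sub]) z
    fun y hy => by
      rw [hh, hh, ← map_sub, ← all_tests R hR z hT y hy, LinearIsometryEquiv.apply_symm_apply,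
        J_self, iso_norm_sub]
  have h1 := congrArg (fun a : sphere (0 : X) 1 => T (a : X)) hfix
  simp only [hh, LinearIsometryEquiv.apply_symm_apply] at h1
  exact h1.symm

open Classical in
/-- the homogeneous extension -/
noncomputable def ext (f : sphere (0 : X) 1 ≃ᵢ sphere (0 : Y) 1) (x : X) : Y :=
  if hx : x = 0 then 0 else ‖x‖ • (f ⟨‖x‖⁻¹ • x, mem_sphere_zero_iff_norm.2 (by
    rw [norm_smul, norm_inv, norm_norm, inv_mul_cancel₀ (norm_ne_zero_iff.2 hx)])⟩ : Y)

theorem ext_decomp (f : sphere (0 : X) 1 ≃ᵢ sphere (0 : Y) 1) {x : X} (hx : x ≠ 0) :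
    ∃ a : sphere (0 : X) 1, x = ‖x‖ • (a : X) ∧ ext f x = ‖x‖ • (f a : Y) :=
  ⟨⟨‖x‖⁻¹ • x, mem_sphere_zero_iff_norm.2 (by
    rw [norm_smul, norm_inv, norm_norm, inv_mul_cancel₀ (norm_ne_zero_iff.2 hx)])⟩,
    (smul_inv_smul₀ (norm_ne_zero_iff.2 hx) x).symm, dif_neg hx⟩

theorem norm_ext (f : sphere (0 : X) 1 ≃ᵢ sphere (0 : Y) 1) (x : X) : ‖ext f x‖ = ‖x‖ := by
  rcases eq_or_ne x 0 with rfl | hx
  · simp [ext]
  obtain ⟨a, -, h⟩ := ext_decomp f hx
  rw [h, norm_smul, sph_norm, mul_one, norm_norm]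

theorem ext_sphere (f : sphere (0 : X) 1 ≃ᵢ sphere (0 : Y) 1) (a : sphere (0 : X) 1) :
    ext f (a : X) = (f a : Y) := by
  obtain ⟨b, h1, h2⟩ := ext_decomp f (x := (a : X))
    (norm_ne_zero_iff.1 (by rw [sph_norm]; norm_num))
  rw [sph_norm, one_smul] at h1 h2
  rw [h2, Subtype.ext h1]

theorem ext_inv (f : sphere (0 : X) 1 ≃ᵢ sphere (0 : Y) 1) (x : X) :
    ext f.symm (ext f x) = x := by
  rcases eq_or_ne x 0 with rfl | hx
  · simp [ext]
  obtain ⟨a, ha, h⟩ := ext_decomp f hx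
  have hn : ‖ext f x‖ = ‖x‖ := norm_ext f x
  obtain ⟨b, hb, h'⟩ := ext_decomp f.symm (x := ext f x)
    (norm_ne_zero_iff.1 (by rw [hn]; exact norm_ne_zero_iff.2 hx))
  rw [hn, h] at hb
  rw [hn] at h'
  have : b = f a := Subtype.ext (smul_right_injective Y (norm_ne_zero_iff.2 hx) hb).symm
  rw [h', this, IsometryEquiv.symm_apply_apply, ← ha]

/-- derivatives of norm one make the extension a contraction -/
theorem ext_lipschitz (f : sphere (0 : X) 1 ≃ᵢ sphere (0 : Y) 1)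
    (T : sphere (0 : X) 1 → (X ≃ₗᵢ[ℝ] Y)) (hTz : ∀ z, T z (z : X) = (f z : Y))
    (hd : ∀ z : sphere (0 : X) 1, ∀ η : ℝ, 0 < η → ∃ δ : ℝ, 0 < δ ∧ ∀ x : sphere (0 : X) 1,
      ‖(x : X) - z‖ ≤ δ → ‖(f x : Y) - f z - T z ((x : X) - z)‖ ≤ η * ‖(x : X) - z‖)
    (x y : X) : ‖ext f x - ext f y‖ ≤ ‖x - y‖ := by
  by_cases h0 : (0 : X) ∈ segment ℝ y x
  · have h1 := dist_add_dist_of_mem_segment h0
    simp only [dist_eq_norm, sub_zero, zero_sub, norm_neg] at h1
    refine (norm_sub_le _ _).trans ?_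
    rw [norm_ext, norm_ext, norm_sub_rev]
    linarith
  have hder : ∀ q ∈ segment ℝ y x, ∃ L : X →L[ℝ] Y, ‖L‖ ≤ 1 ∧
      HasFDerivWithinAt (ext f) L (segment ℝ y x) q := by
    intro q hq
    have hq0 : q ≠ 0 := fun e => h0 (e ▸ hq)
    obtain ⟨z, hz, hFz⟩ := ext_decomp f hq0
    refine ⟨((T z).toLinearIsometry.toContinuousLinearMap), ?_, HasFDerivAt.hasFDerivWithinAt ?_⟩
    · exact (T z).toLinearIsometry.norm_toContinuousLinearMap_le
    rw [hasFDerivAt_iff_isLittleO_nhds_zero, Asymptotics.isLittleO_iff]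
    intro η hη
    obtain ⟨δ, hδ, H⟩ := hd z (η / 2) (half_pos hη)
    have hn : 0 < ‖q‖ := norm_pos_iff.2 hq0
    rw [Filter.eventually_iff_exists_mem]
    refine ⟨Metric.ball 0 (min (‖q‖ / 2) (δ * ‖q‖ / 4)), Metric.ball_mem_nhds _ (by positivity),
      fun k hk => ?_⟩
    rw [mem_ball_zero_iff, lt_min_iff] at hk
    have hqk : q + k ≠ 0 := by
      intro e
      rw [eq_neg_of_add_eq_zero_left e, norm_neg] at hk
      linarith [norm_nonneg k]
    obtain ⟨z', hz', hF'⟩ := ext_decomp f hqk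
    obtain ⟨m, hm⟩ : ∃ m : ℝ, m = ‖q + k‖ := ⟨_, rfl⟩
    obtain ⟨n, hn'⟩ : ∃ n : ℝ, n = ‖q‖ := ⟨_, rfl⟩
    rw [← hm] at hz' hF'
    rw [← hn'] at hz hFz hn hk
    have hm0 : 0 ≤ m := by rw [hm]; exact norm_nonneg _
    have hmn : |m - n| ≤ ‖k‖ := by
      rw [hm, hn']
      simpa using abs_norm_sub_norm_le (q + k) q
    have hmn' := abs_le.1 hmn
    have hd' : m * ‖(z' : X) - z‖ ≤ 2 * ‖k‖ := by
      have e : m • ((z' : X) - z) = k - (m - n) • (z : X) := by
        rw [smul_sub, ← hz']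
        conv_lhs => arg 1; arg 1; rw [hz]
        module
      have h1 : ‖m • ((z' : X) - z)‖ = m * ‖(z' : X) - z‖ := norm_smul_of_nonneg hm0 _
      rw [← h1, e]
      refine (norm_sub_le _ _).trans ?_
      rw [norm_smul, sph_norm, mul_one, Real.norm_eq_abs]
      linarith
    have hzz : ‖(z' : X) - z‖ ≤ δ := by
      have h2 : n / 2 * ‖(z' : X) - z‖ ≤ m * ‖(z' : X) - z‖ :=
        mul_le_mul_of_nonneg_right (by linarith) (norm_nonneg _)
      have h3 : n / 2 * ‖(z' : X) - z‖ ≤ n / 2 * δ := by linarith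
      exact le_of_mul_le_mul_left h3 (by linarith)
    have hk' : k = m • (z' : X) - n • (z : X) := by rw [← hz', ← hz]; abel
    have e2 : ext f (q + k) - ext f q - (T z).toLinearIsometry.toContinuousLinearMap k
        = m • ((f z' : Y) - f z - T z ((z' : X) - z)) := by
      rw [hF', hFz, show (T z).toLinearIsometry.toContinuousLinearMap k = T z k from rfl, hk',
        map_sub, map_smul, map_smul, map_sub, hTz]
      module
    rw [e2, norm_smul_of_nonneg hm0]
    refine (mul_le_mul_of_nonneg_left (H z' hzz) hm0).trans ?_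
    have := mul_le_mul_of_nonneg_left hd' (show 0 ≤ η / 2 by linarith)
    linarith
  choose! L hL hLd using hder
  have h1 := (convex_segment (𝕜 := ℝ) y x).norm_image_sub_le_of_norm_hasFDerivWithin_le hLd hL
    (left_mem_segment ℝ y x) (right_mem_segment ℝ y x)
  linarith

/-- Mazur-Ulam for `f` in the regular case -/
theorem linear_of_reg [CompleteSpace X] [CompleteSpace Y] (R : Reg f p C) (hR : Rough X p)
    (hA : Anti f) : ∃ T : X ≃ₗᵢ[ℝ] Y, ∀ x : sphere (0 : X) 1, T x = (f x : Y) := by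
  choose T hT _ hd using exists_T R hR hA
  have hTz : ∀ z, T z (z : X) = (f z : Y) := fun z => T_self R hR z (hT z)
  have hF := ext_lipschitz f T hTz hd
  have hTz' : ∀ y : sphere (0 : Y) 1, (T (f.symm y)).symm (y : Y) = (f.symm y : X) := fun y => by
    rw [LinearIsometryEquiv.symm_apply_eq, hTz, IsometryEquiv.apply_symm_apply]
  have hG := ext_lipschitz f.symm (fun y => (T (f.symm y)).symm) hTz' fun y η hη => by
    obtain ⟨δ, hδ, H⟩ := hd (f.symm y) η hη
    refine ⟨δ, hδ, fun x hx => ?_⟩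
    have hxx : ‖(f.symm x : X) - f.symm y‖ = ‖(x : Y) - y‖ := iso_norm_sub f.symm x y
    have h1 := H (f.symm x) (by rw [hxx]; exact hx)
    rw [IsometryEquiv.apply_symm_apply, IsometryEquiv.apply_symm_apply, hxx] at h1
    refine le_of_eq_of_le ?_ h1
    have e := congrArg norm (map_sub (T (f.symm y)) ((f.symm x : X) - f.symm y)
      ((T (f.symm y)).symm ((x : Y) - y)))
    rw [LinearIsometryEquiv.norm_map, LinearIsometryEquiv.apply_symm_apply] at e
    rw [e, norm_sub_rev]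
  have hiso : Isometry (ext f) := Isometry.of_dist_eq fun a b => by
    rw [dist_eq_norm, dist_eq_norm]
    refine le_antisymm (hF a b) ?_
    have := hG (ext f a) (ext f b)
    rwa [ext_inv, ext_inv] at this
  have hsurj : Function.Surjective (ext f) := fun y => ⟨ext f.symm y, by
    have := ext_inv f.symm y
    rwa [IsometryEquiv.symm_symm] at this⟩
  set e : X ≃ᵢ Y :=
    { toEquiv := Equiv.ofBijective (ext f) ⟨hiso.injective, hsurj⟩, isometry_toFun := hiso }
  refine ⟨e.toRealLinearIsometryEquivOfMapZero (by show ext f 0 = 0; simp [ext]), fun x => ?_⟩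
  exact ext_sphere f x

end Vale.Agent.P084.Asym
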