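import Vale.Agent.P084.Asym.Transfer

/-!
P084, asymptotic classes: the usual moduli, taken over subspaces of finite codimension, give the
bounds for the gain along weakly null sequences.
-/

open Filter Topology Metric

namespace Vale.Agent.P084.Asym

open Vale.Agent.P084.Smooth

universe u

variable {X : Type u} [NormedAddCommGroup X] [NormedSpace ℝ X]

theorem gain_of_aus {p C : ℝ} (hp : 1 < p)
    (h : ∀ x : X, ‖x‖ = 1 → ∀ r : ℝ, 0 < r → r ≤ 1 → ∃ F : Finset (StrongDual ℝ X),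
      ∀ k : X, (∀ φ ∈ F, φ k = 0) → ‖k‖ ≤ r → ‖x + k‖ ≤ 1 + C * r ^ p) :
    ∀ r, 0 ≤ r → gain X r ≤ max C 1 * r ^ p := by
  intro r hr
  have hC : 0 ≤ max C 1 := le_trans zero_le_one (le_max_right _ _)
  have hrp : 0 ≤ r ^ p := Real.rpow_nonneg hr p
  rcases le_or_gt 1 r with h1 | h1
  · refine (gain_le_self hr).trans (le_trans ?_ (le_mul_of_one_le_left hrp (le_max_right _ _)))
    simpa using Real.rpow_le_rpow_of_exponent_le h1 hp.le
  refine Real.sSup_le (fun g hg => ?_) (mul_nonneg hC hrp)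
  obtain ⟨z, ν, hz, hb, hw, hνr, rfl⟩ := hg
  refine le_of_forall_pos_le_add fun ε hε => ?_
  have hcont : ContinuousAt (fun t : ℝ => max C 1 * t ^ p) r :=
    (Real.continuousAt_rpow_const r p (Or.inr (by linarith))).const_mul _
  obtain ⟨δ, hδ, hball⟩ := Metric.continuousAt_iff.1 hcont ε hε
  obtain ⟨s, hrs, hs1, hsδ⟩ : ∃ s : ℝ, r < s ∧ s ≤ 1 ∧ s - r < δ :=
    ⟨min 1 (r + δ / 2), lt_min h1 (by linarith), min_le_left _ _,
      by linarith [min_le_right 1 (r + δ / 2)]⟩
  obtain ⟨F, hF⟩ := h z hz s (hr.trans_lt hrs) hs1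
  set T : X →L[ℝ] (F → ℝ) := ContinuousLinearMap.pi fun φ : F => (φ : StrongDual ℝ X)
  obtain ⟨S, hS⟩ := (T.toLinearMap).rangeRestrict.exists_rightInverse_of_surjective
    T.toLinearMap.range_rangeRestrict
  obtain ⟨k, hk⟩ : ∃ k : ℕ → X, k = fun n => ν n - S (T.toLinearMap.rangeRestrict (ν n)) :=
    ⟨_, rfl⟩
  have hker : ∀ n, T (k n) = 0 := fun n => by
    have h2 := congrArg Subtype.val (LinearMap.congr_fun hS (T.toLinearMap.rangeRestrict (ν n)))
    simp only [LinearMap.comp_apply, LinearMap.id_apply] at h2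
    rw [hk, map_sub, sub_eq_zero]
    exact h2.symm
  have hT0 : Tendsto (fun n => T (ν n)) U0 (𝓝 0) := by
    rw [tendsto_pi_nhds]
    intro φ
    simpa [T] using hw (φ : StrongDual ℝ X)
  have hS0 : Tendsto (fun n => S (T.toLinearMap.rangeRestrict (ν n))) U0 (𝓝 0) := by
    have h2 : Tendsto (fun n => T.toLinearMap.rangeRestrict (ν n)) U0 (𝓝 0) := by
      rw [tendsto_subtype_rng]; simpa using hT0
    simpa [Function.comp_def] using
      ((LinearMap.continuous_of_finiteDimensional S).tendsto' 0 0 (map_zero S)).comp h2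
  have hd : Tendsto (fun n => ‖(z + ν n) - (z + k n)‖) U0 (𝓝 0) := by
    simp only [hk]
    simpa [tendsto_zero_iff_norm_tendsto_zero] using hS0
  have hkb : Bdd fun n => z + k n := by
    obtain ⟨M, hM⟩ := hb.const_add z
    exact ⟨M + 1, (hM.and (hd.eventually_le_const (show (0 : ℝ) < 1 by norm_num))).mono fun n hn => by
      have := norm_le_norm_add_norm_sub' (z + k n) (z + ν n)
      rw [norm_sub_rev] at this
      linarith [hn.1, hn.2]⟩
  rw [ulim_norm_congr hkb hd]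
  have hev : ∀ᶠ n in (U0 : Filter ℕ), ‖k n‖ ≤ s := by
    obtain ⟨m, hrm, hms⟩ := exists_between hrs
    filter_upwards [hb.tendsto_norm.eventually_le_const ((null_norm_le hb hw hνr).trans_lt hrm),
      hd.eventually_le_const (show (0 : ℝ) < s - m by linarith)] with n h2 h3
    have := norm_le_norm_add_norm_sub' (k n) (ν n)
    rw [norm_sub_rev] at this
    rw [add_sub_add_left_eq_sub] at h3
    linarith
  have h2 : (ulim fun n => ‖z + k n‖) ≤ 1 + max C 1 * s ^ p := by
    refine le_of_tendsto hkb.tendsto_norm (hev.mono fun n hn => ?_)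
    refine (hF (k n) (fun φ hφ => congrFun (hker n) ⟨φ, hφ⟩) hn).trans ?_
    have : 0 ≤ s ^ p := Real.rpow_nonneg (hr.trans hrs.le) p
    linarith [mul_le_mul_of_nonneg_right (le_max_left C 1) this]
  have h3 := hball (x := s) (by rw [Real.dist_eq, abs_of_pos (sub_pos.2 hrs)]; exact hsδ)
  rw [Real.dist_eq, abs_lt] at h3
  linarith [h3.2]

theorem rough_of_auc [CompleteSpace X] (hS : SmoothU X) (hinf : ¬ FiniteDimensional ℝ X) {p : ℝ}
    (h : ∀ x : X, ‖x‖ = 1 → ∃ c : ℝ, 0 < c ∧ ∀ r : ℝ, 0 < r → r ≤ 1 →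
      ∃ F : Finset (StrongDual ℝ X),
        ∀ k : X, (∀ φ ∈ F, φ k = 0) → ‖k‖ = r → 1 + c * r ^ p ≤ ‖x + k‖) : Rough X p := by
  intro z hz
  obtain ⟨c, hc, hF⟩ := h z hz
  refine ⟨c / 2 ^ p, by positivity, fun r hr hr1 => ?_⟩
  obtain ⟨F, hF⟩ := hF (r / 2) (by positivity) (by linarith)
  set T : X →L[ℝ] (F → ℝ) := ContinuousLinearMap.pi fun φ : F => (φ : StrongDual ℝ X)
  have hker : ¬ FiniteDimensional ℝ (LinearMap.ker T.toLinearMap) := by
    intro hfin
    refine hinf (Module.finite_def.2 (Submodule.fg_of_fg_map_of_fg_inf_ker T.toLinearMap ?_ ?_))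
    · exact IsNoetherian.noetherian _
    · rw [top_inf_eq]; exact Module.Finite.iff_fg.1 hfin
  obtain ⟨R, x, hR, hxb, hsep⟩ := exists_seq_norm_le_one_le_norm_sub hker
  obtain ⟨v, hv⟩ := exists_wl hS (x := fun n => (x n : X)) (M := R) hxb
  have hvF : ∀ φ ∈ F, φ v = 0 := fun φ hφ => by
    refine tendsto_nhds_unique (hv φ) (tendsto_const_nhds.congr fun n => ?_)
    exact (congrFun (LinearMap.mem_ker.1 (x n).2) ⟨φ, hφ⟩).symm
  have hev : ∀ᶠ n in (U0 : Filter ℕ), 1 / 2 ≤ ‖(x n : X) - v‖ := by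
    refine Filter.mem_of_superset (hyperfilter_le_cofinite (Set.Finite.compl_mem_cofinite
      (Set.Subsingleton.finite (s := {n : ℕ | ‖(x n : X) - v‖ < 1 / 2}) ?_))) fun n hn => ?_
    · intro a ha b hb
      by_contra hne
      have h1 : 1 ≤ ‖(x a : X) - (x b : X)‖ := hsep hne
      have h2 := norm_sub_le_norm_sub_add_norm_sub (x a : X) v (x b : X)
      rw [norm_sub_rev v] at h2
      change ‖(x a : X) - v‖ < 1 / 2 at ha
      change ‖(x b : X) - v‖ < 1 / 2 at hb
      linarith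
    · exact not_lt.1 (show ¬ ‖(x n : X) - v‖ < 1 / 2 from hn)
  obtain ⟨ν, hν⟩ : ∃ ν : ℕ → X,
      ν = fun n => (r / 2 / ‖(x n : X) - v‖) • ((x n : X) - v) := ⟨_, rfl⟩
  have hn : ∀ᶠ n in (U0 : Filter ℕ), ‖ν n‖ = r / 2 := hev.mono fun n hn => by
    rw [hν, norm_smul_of_nonneg (by positivity), div_mul_cancel₀ _ (by linarith)]
  have hb : Bdd ν := ⟨r / 2, hn.mono fun n h => h.le⟩
  refine ⟨ν, hb, fun φ => ?_, ?_, ?_⟩
  · rw [map_zero]
    have h0 : Tendsto (fun n => r * |φ ((x n : X) - v)|) U0 (𝓝 0) := by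
      simpa using ((hv φ).sub_const (φ v)).abs.const_mul r
    refine squeeze_zero_norm' (hev.mono fun n hn => ?_) h0
    rw [hν, map_smul, smul_eq_mul, norm_mul, Real.norm_eq_abs, Real.norm_eq_abs,
      abs_of_nonneg (by positivity)]
    refine mul_le_mul_of_nonneg_right ?_ (abs_nonneg _)
    rw [div_le_iff₀ (by linarith)]
    have := mul_le_mul_of_nonneg_left hn hr.le
    linarith
  · refine le_of_tendsto hb.rad_tendsto (hn.mono fun a ha => ?_)
    refine le_of_tendsto (hb.inner_tendsto a) (hn.mono fun b hb' => ?_)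
    exact (norm_sub_le _ _).trans (by linarith)
  · refine ge_of_tendsto (hb.const_add z).tendsto_norm (hn.mono fun n hn => ?_)
    have e : c / 2 ^ p * r ^ p = c * (r / 2) ^ p := by
      rw [Real.div_rpow hr.le (by norm_num)]; ring
    rw [e]
    refine hF (ν n) (fun φ hφ => ?_) hn
    rw [hν, map_smul, map_sub, hvF φ hφ,
      show φ (x n : X) = 0 from congrFun (LinearMap.mem_ker.1 (x n).2) ⟨φ, hφ⟩, sub_zero, smul_zero]

end Vale.Agent.P084.Asym
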