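import Vale.Agent.P084.Asym.Geo
import Vale.Agent.P084.Smooth.GainBasic

/-!
P084, asymptotic classes: the weak limit of the image is near the image of a near point.
-/

open Filter Topology Metric

namespace Vale.Agent.P084.Asym

open Vale.Agent.P084.Smooth

universe u v

variable {X : Type u} [NormedAddCommGroup X] [NormedSpace ℝ X]
  {Y : Type v} [NormedAddCommGroup Y] [NormedSpace ℝ Y]
  {f : sphere (0 : X) 1 ≃ᵢ sphere (0 : Y) 1} {p C : ℝ}

/-- the gain at a smaller length of the base vector -/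
theorem gain_scaled {E : Type u} [NormedAddCommGroup E] [NormedSpace ℝ E] {p C : ℝ}
    (hg : ∀ r, 0 ≤ r → gain E r ≤ C * r ^ p) {s r : ℝ} (hs : 0 < s) (hr : 0 ≤ r) :
    s * gain E (r / s) ≤ C * s ^ (1 - p) * r ^ p := by
  refine (mul_le_mul_of_nonneg_left (hg _ (div_nonneg hr hs.le)) hs.le).trans (le_of_eq ?_)
  rw [Real.div_rpow hr hs.le, Real.rpow_sub hs, Real.rpow_one]
  ring

theorem near [CompleteSpace X] [CompleteSpace Y] (R : Reg f p C) :
    ∃ σ : ℝ, 0 < σ ∧ ∃ K : ℝ, 1 ≤ K ∧ ∀ (r : ℝ) (st : St f r) (a : sphere (0 : X) 1),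
      0 ≤ r → r ≤ σ → ‖st.v - a‖ ≤ σ → ‖st.u - (f a : Y)‖ ≤ K * (‖st.v - a‖ + r ^ p) := by
  obtain ⟨τ', hτ', hback⟩ := chord_back R (show (0 : ℝ) < 1 / 10 by norm_num)
  obtain ⟨t, ht, hup⟩ := upper R.sY (show (0 : ℝ) < 1 / 14 by norm_num)
  obtain ⟨D, hD⟩ : ∃ D : ℝ, D = C * (τ' / 2) ^ (1 - p) := ⟨_, rfl⟩
  have hD0 : 0 ≤ D := by
    rw [hD]; exact mul_nonneg (by linarith [R.hC]) (Real.rpow_nonneg (by positivity) _)
  refine ⟨min (τ' / 8) (t * τ' / 2), by positivity, 14 * (1 + D), by linarith, ?_⟩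
  intro r st a hr hrσ hEσ
  simp only [le_min_iff] at hrσ hEσ
  set E := ‖st.v - a‖
  have hE0 : 0 ≤ E := norm_nonneg _
  set a' : Y := (f a : Y) with ha'
  set k := st.u - a'
  have hxb : Bdd st.x := bdd_sphere st.x_one
  have hyb : Bdd st.y := bdd_sphere st.y_one
  have hνr : rad (fun n => st.x n - st.v) ≤ r := by rw [rad_sub_const]; exact st.hr
  have hμr : rad (fun n => st.y n - st.u) ≤ r := by
    rw [rad_sub_const, st.rad_y]; exact st.hr
  have hk' : ‖k‖ ≤ E + r := by
    refine (WL.norm_le (hyb.sub_const a') (st.wy.sub_const a')).trans ?_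
    rw [ha', st.ulim_eq a]
    refine le_trans ?_ (add_le_add le_rfl ((norm_le_rad' hxb st.wx).trans st.hr))
    exact le_of_tendsto_of_tendsto' (hxb.sub_const _).tendsto_norm
      ((hxb.sub_const st.v).tendsto_norm.const_add E)
      fun n => (norm_sub_le_norm_sub_add_norm_sub _ st.v _).trans (by linarith)
  have est : ∀ e : Y, ‖e‖ = 1 → 1 / 10 ≤ J a' e →
      |J e k| ≤ E + D * r ^ p + 1 / 14 * ‖k‖ := by
    intro e he hae
    obtain ⟨q, L, hL, hτq, hq⟩ := hback a e he hae
    rw [← ha'] at hq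
    have hn : ‖a' - (f q : Y)‖ = L := by
      rw [hq, norm_smul_of_nonneg hL.le, he, mul_one]
    have hnX : ‖(a : X) - q‖ = L := by rw [← iso_norm_sub f]; exact hn
    have hτL : τ' ≤ L := by rw [← hnX]; exact hτq.trans (J_le _ _)
    have hv1 := norm_sub_le_norm_sub_add_norm_sub st.v (a : X) q
    have hv2 := norm_sub_le_norm_sub_add_norm_sub (a : X) st.v q
    rw [norm_sub_rev (a : X) st.v] at hv2
    have hu1 : L - ‖k‖ ≤ ‖st.u - (f q : Y)‖ := by
      have := norm_sub_le_norm_sub_add_norm_sub a' st.u (f q : Y)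
      rw [norm_sub_rev a' st.u, hn] at this
      linarith
    have hyq := WL.norm_le (hyb.sub_const (f q : Y)) (st.wy.sub_const (f q : Y))
    have hxq := WL.norm_le (hxb.sub_const (q : X)) (st.wx.sub_const (q : X))
    rw [st.ulim_eq q] at hyq
    have hX := ulim_add_le (x := st.v - q) (hxb.sub_const st.v) st.wx.sub_self hνr
      (show 0 < τ' / 2 by positivity) (by linarith)
    have hY := ulim_add_le (x := st.u - (f q : Y)) (hyb.sub_const st.u) st.wy.sub_self hμr
      (show 0 < τ' / 2 by positivity) (by linarith)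
    simp only [show ∀ (b c w : X), b - c + (w - b) = w - c by intros; abel] at hX
    simp only [show ∀ (b c w : Y), b - c + (w - b) = w - c by intros; abel] at hY
    rw [st.ulim_eq q] at hY
    have gX := gain_scaled R.gX (show 0 < τ' / 2 by positivity) hr
    have gY := gain_scaled R.gY (show 0 < τ' / 2 by positivity) hr
    rw [← hD] at gX gY
    have e2 : st.u - (f q : Y) = L • e + k := by rw [← hq]; simp only [k]; abel
    rw [e2] at hu1 hY hyq
    have he0 : e ≠ 0 := norm_ne_zero_iff.1 (by rw [he]; norm_num)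
    have h1 := add_J_le (L • e) k
    have hLe : ‖L • e‖ = L := by rw [norm_smul_of_nonneg hL.le, he, mul_one]
    have h2 := hup (L • e) k (by
      rw [hLe]
      have : t * τ' ≤ t * L := mul_le_mul_of_nonneg_left hτL ht.le
      linarith)
    rw [J_smul_eq R.sY he0 hL, hLe] at h1 h2
    have := norm_nonneg k
    rw [abs_le]
    constructor <;> linarith
  have h4 := sep R.sY (sph_norm (f a)) est
  have h5 : 0 ≤ r ^ p := Real.rpow_nonneg hr p
  have h6 : 0 ≤ D * E := mul_nonneg hD0 hE0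
  linarith

end Vale.Agent.P084.Asym
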