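import Vale.Agent.P084.Asym.Near

/-!
P084, asymptotic classes: one translation along a transversal chord.
-/

open Filter Topology Metric

namespace Vale.Agent.P084.Asym

open Vale.Agent.P084.Smooth

universe u

variable {X : Type u} [NormedAddCommGroup X] [NormedSpace ℝ X]

/-- one translation along a chord, shrinking the weakly null part by the factor `c` -/
theorem shift (hS : SmoothU X) {l κ : ℝ} (hl : 0 < l) (hκ : 0 < κ) (hκ1 : κ ≤ 1) :
    ∃ σ : ℝ, 0 < σ ∧ ∀ (a b : X), ‖a‖ = 1 → ‖b‖ = 1 → l ≤ ‖a - b‖ →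
      κ ≤ J b (‖a - b‖⁻¹ • (b - a)) →
      ∀ (x : ℕ → X) (v : X) (r G c : ℝ), (∀ᶠ n in (U0 : Filter ℕ), ‖x n‖ = 1) → WL x v →
        rad x ≤ r → 0 ≤ r → r ≤ σ → gain X r ≤ G → 0 < G → G ≤ σ → ‖v - a‖ ≤ σ → 0 ≤ c → c ≤ 1 →
        ∃ (y : ℕ → X) (s : ℝ), (∀ᶠ n in (U0 : Filter ℕ), ‖y n‖ = 1) ∧
          WL y (v - s • (‖a - b‖⁻¹ • (a - b))) ∧ rad y ≤ c * r ∧
          ‖v - s • (‖a - b‖⁻¹ • (a - b)) - b‖ ≤ ‖v - a‖ + 4 / κ * (‖v - a‖ + G) ∧
          (ulim fun n => ‖x n - y n‖) ≤ s + l / 2 * gain X ((1 - c) * r / (l / 2)) := by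
  obtain ⟨t, ht, hexp⟩ := upper hS (show 0 < κ / 8 by positivity)
  refine ⟨min (1 / 8) (min (l / 2 * κ / 8) (t * κ / 12)), by positivity, ?_⟩
  intro a b ha hb hab hbd x v r G c hx hv hrad hr hrσ hgG hG hGσ hE hc hc1
  simp only [le_min_iff] at hrσ hGσ hE
  set E := ‖v - a‖ with hEdef
  have hE0 : 0 ≤ E := norm_nonneg _
  set L := ‖a - b‖ with hL
  have hLpos : 0 < L := hl.trans_le hab
  set d := L⁻¹ • (a - b) with hd
  have hdn : ‖d‖ = 1 := by
    rw [hd, norm_smul_of_nonneg (inv_nonneg.2 hLpos.le), ← hL, inv_mul_cancel₀ hLpos.ne']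
  have hLd : L • d = a - b := by rw [hd, smul_smul, mul_inv_cancel₀ hLpos.ne', one_smul]
  set Δ := 4 / κ * (E + G) with hΔ
  have hΔ0 : 0 < Δ := by positivity
  have hΔκ : Δ * κ = 4 * (E + G) := by rw [hΔ]; field_simp
  have hΔl : Δ ≤ l / 2 := by nlinarith
  have hΔt : Δ + E ≤ t := by nlinarith
  replace hbd : κ ≤ J b (-d) := by rwa [hd, ← smul_neg, neg_sub]
  have hbd' : J b d ≤ -κ := by rw [map_neg] at hbd; linarith
  set ν := fun n => x n - v with hν
  have hνb : Bdd ν := (bdd_sphere hx).sub_const v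
  have hν0 : WL ν 0 := hv.sub_self
  have hνr : rad ν ≤ r := by simpa [rad, hν, sub_sub_sub_cancel_right] using hrad
  have hcν : rad (fun n => c • ν n) ≤ r := by
    refine (rad_le_of hνb (hνb.smul c) (e := fun _ => 0) tendsto_const_nhds hc hνr
      (Eventually.of_forall fun n => Eventually.of_forall fun m => ?_)).trans
      (mul_le_of_le_one_left hr hc1)
    rw [← smul_sub, norm_smul_of_nonneg hc]; linarith
  set F : ℕ → ℝ → ℝ := fun n s => ‖v - s • d + c • ν n‖ with hF
  have hp : J b (v - a) ≤ E ∧ -E ≤ J b (v - a) := ⟨J_le _ _, neg_le_J _ _⟩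
  have ehi : v - (L + Δ) • d = b + (Δ • (-d) + (v - a)) := by
    rw [add_smul, hLd, smul_neg]; abel
  have elo : v - (L - Δ) • d = b + (Δ • d + (v - a)) := by
    rw [sub_smul, hLd]; abel
  have hhi : ∀ᶠ n in (U0 : Filter ℕ), 1 ≤ F n (L + Δ) := by
    have h0 : Tendsto (fun n => J b (c • ν n)) U0 (𝓝 0) := by
      simpa using (hν0 (J b)).const_mul c
    filter_upwards [h0.eventually_const_le (show -(3 * E + 4 * G) < 0 by linarith)] with n hn
    have h := J_le b (v - (L + Δ) • d + c • ν n)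
    rw [map_add, ehi, map_add, map_add, map_smul, smul_eq_mul, J_self, hb, ← ehi] at h
    have h3 : Δ * κ ≤ Δ * J b (-d) := mul_le_mul_of_nonneg_left hbd hΔ0.le
    simp only [hF]
    linarith
  have hlo : ∀ᶠ n in (U0 : Filter ℕ), F n (L - Δ) ≤ 1 := by
    have hn : ‖Δ • d + (v - a)‖ ≤ Δ + E := (norm_add_le _ _).trans
      (by rw [norm_smul_of_nonneg hΔ0.le, hdn, mul_one])
    have h := hexp b (Δ • d + (v - a)) (by rw [hb, mul_one]; exact hn.trans hΔt)
    rw [← elo, hb, map_add, map_smul, smul_eq_mul] at h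
    set s₁ := ‖v - (L - Δ) • d‖
    have h3 : Δ * J b d ≤ Δ * (-κ) := mul_le_mul_of_nonneg_left hbd' hΔ0.le
    have h4 : κ / 8 * ‖Δ • d + (v - a)‖ ≤ Δ * κ / 8 + E / 8 := by
      refine (mul_le_mul_of_nonneg_left hn (by positivity)).trans ?_
      nlinarith
    have hs : s₁ ≤ 1 - 7 / 2 * G := by linarith
    have h5 := ulim_add_le_small (x := v - (L - Δ) • d) (ν := fun n => c • ν n) (hνb.smul c)
      (by simpa using hν0.smul c) hcν (by linarith)
    have h6 : (ulim fun n => F n (L - Δ)) < 1 := by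
      have : (1 - s₁) * r ≤ (1 - s₁) * (1 / 8) :=
        mul_le_mul_of_nonneg_left hrσ.1 (by linarith)
      simp only [hF]
      linarith
    have hb2 : Bdd fun n => v - (L - Δ) • d + c • ν n := (bdd_const _).add (hνb.smul c)
    exact (hb2.tendsto_norm.eventually_le_const h6).mono fun n hn => hn
  have hroot : ∀ n, ∃ s ∈ Set.Icc (L - Δ) (L + Δ),
      F n (L - Δ) ≤ 1 → 1 ≤ F n (L + Δ) → F n s = 1 := by
    intro n
    by_cases h : F n (L - Δ) ≤ 1 ∧ 1 ≤ F n (L + Δ)
    · obtain ⟨s, hs, hs1⟩ := intermediate_value_Icc (by linarith : L - Δ ≤ L + Δ)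
        (show ContinuousOn (F n) (Set.Icc (L - Δ) (L + Δ)) by simp only [hF]; fun_prop) h
      exact ⟨s, hs, fun _ _ => hs1⟩
    · exact ⟨L, ⟨by linarith, by linarith⟩, fun h1 h2 => (h ⟨h1, h2⟩).elim⟩
  choose sn hsn hroot using hroot
  set s := ulim sn with hs
  have hst : Tendsto sn U0 (𝓝 s) := ulim_spec (Eventually.of_forall hsn)
  have hs1 : L - Δ ≤ s := ge_of_tendsto hst (Eventually.of_forall fun n => (hsn n).1)
  have hs2 : s ≤ L + Δ := le_of_tendsto hst (Eventually.of_forall fun n => (hsn n).2)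
  have hsl : l / 2 ≤ s := by linarith
  have he : Tendsto (fun n => |sn n - s|) U0 (𝓝 0) := by
    simpa using (hst.sub_const s).abs
  refine ⟨fun n => v - sn n • d + c • ν n, s, ?_, ?_, ?_, ?_, ?_⟩
  · filter_upwards [hlo, hhi] with n h1 h2 using hroot n h1 h2
  · have h1 : WL (fun n => v - s • d + c • ν n) (v - s • d) := fun φ => by
      simpa using ((hν0 φ).const_mul c).const_add (φ (v - s • d))
    refine h1.congr_tendsto (he.congr fun n => ?_)
    rw [show v - sn n • d + c • ν n - (v - s • d + c • ν n) = (s - sn n) • d by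
      rw [sub_smul]; abel, norm_smul, hdn, mul_one, Real.norm_eq_abs, abs_sub_comm]
  · refine rad_le_of (bdd_sphere hx) (bdd_sphere ?_) he hc hrad
      (Eventually.of_forall fun n => Eventually.of_forall fun m => ?_)
    · filter_upwards [hlo, hhi] with n h1 h2 using hroot n h1 h2
    · rw [show v - sn n • d + c • ν n - (v - sn m • d + c • ν m)
        = ((s - sn n) - (s - sn m)) • d + c • (x n - x m) by simp only [hν]; module]
      refine (norm_add_le _ _).trans ?_
      rw [norm_smul, hdn, mul_one, norm_smul_of_nonneg hc, Real.norm_eq_abs]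
      have := abs_sub (s - sn n) (s - sn m)
      rw [abs_sub_comm s, abs_sub_comm s] at this
      linarith
  · rw [show v - s • d - b = (v - a) + (L - s) • d by rw [sub_smul, hLd]; abel]
    refine (norm_add_le _ _).trans ?_
    rw [norm_smul, hdn, mul_one, Real.norm_eq_abs]
    have : |L - s| ≤ Δ := abs_le.2 ⟨by linarith, by linarith⟩
    linarith
  · have hb2 : Bdd fun n => s • d + (1 - c) • ν n := (bdd_const _).add (hνb.smul _)
    rw [ulim_norm_congr (x := fun n => x n - (v - sn n • d + c • ν n)) hb2 (he.congr fun n => ?_)]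
    · have hsd : ‖s • d‖ = s := by rw [norm_smul_of_nonneg (by linarith), hdn, mul_one]
      have h2 := ulim_add_le (x := s • d) (ν := fun n => (1 - c) • ν n) (r := (1 - c) * r) (s := l / 2)
        (hνb.smul _) (by simpa using hν0.smul (1 - c)) ?_ (by positivity) (by rw [hsd]; exact hsl)
      · rwa [hsd] at h2
      · refine rad_le_of hνb (hνb.smul _) (e := fun _ => 0) tendsto_const_nhds (by linarith) hνr
          (Eventually.of_forall fun n => Eventually.of_forall fun m => ?_)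
        rw [← smul_sub, norm_smul_of_nonneg (by linarith)]; linarith
    · rw [show x n - (v - sn n • d + c • ν n) - (s • d + (1 - c) • ν n) = (sn n - s) • d by
        simp only [hν]; module, norm_smul, hdn, mul_one, Real.norm_eq_abs]

end Vale.Agent.P084.Asym
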