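import Vale.Agent.P084.Asym.Key

/-!
P084, asymptotic classes: at every point the chord tests define a linear isometry, which is the
derivative of the sphere isometry there.
-/

open Filter Topology Metric

namespace Vale.Agent.P084.Asym

open Vale.Agent.P084.Smooth

universe u v

variable {X : Type u} [NormedAddCommGroup X] [NormedSpace ℝ X]
  {Y : Type v} [NormedAddCommGroup Y] [NormedSpace ℝ Y]
  {f : sphere (0 : X) 1 ≃ᵢ sphere (0 : Y) 1} {p C : ℝ}

/-- every unit vector gains at least a multiple of `r ^ p` along some weakly null sequence -/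
def Rough (X : Type u) [NormedAddCommGroup X] [NormedSpace ℝ X] (p : ℝ) : Prop :=
  ∀ z : X, ‖z‖ = 1 → ∃ c : ℝ, 0 < c ∧ ∀ r : ℝ, 0 < r → r ≤ 1 → ∃ ν : ℕ → X,
    Bdd ν ∧ WL ν 0 ∧ rad ν ≤ r ∧ 1 + c * r ^ p ≤ ulim fun n => ‖z + ν n‖

/-- the image of the antipode is opposite to the image, as seen by its functional -/
def Anti (f : sphere (0 : X) 1 ≃ᵢ sphere (0 : Y) 1) : Prop :=
  ∀ z zn : sphere (0 : X) 1, (zn : X) = -(z : X) → J (f z : Y) (f zn : Y) = -1

/-- distances give the tests to first order -/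
theorem first_order (R : Reg f p C) {τ η : ℝ} (hτ : 0 < τ) (hη : 0 < η) :
    ∃ δ : ℝ, 0 < δ ∧ ∀ z w x : sphere (0 : X) 1, τ ≤ J (z : X) ((z : X) - w) →
      ‖(x : X) - z‖ ≤ δ →
        |J ((f z : Y) - f w) ((f x : Y) - f z) - J ((z : X) - w) ((x : X) - z)|
          ≤ η * ‖(x : X) - z‖ := by
  obtain ⟨s, hs, hX⟩ := upper R.sX hη
  obtain ⟨t, ht, hY⟩ := upper R.sY hη
  refine ⟨min (s * τ) (t * τ), lt_min (mul_pos hs hτ) (mul_pos ht hτ), fun z w x hzw hx => ?_⟩
  simp only [le_min_iff] at hx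
  have hL : τ ≤ ‖(z : X) - w‖ := hzw.trans (J_le _ _)
  have a1 := hX ((z : X) - w) ((x : X) - z)
    (hx.1.trans (mul_le_mul_of_nonneg_left hL hs.le))
  have a2 := hY ((f z : Y) - f w) ((f x : Y) - f z) (by
    rw [iso_norm_sub, iso_norm_sub]; exact hx.2.trans (mul_le_mul_of_nonneg_left hL ht.le))
  have b1 := add_J_le ((z : X) - w) ((x : X) - z)
  have b2 := add_J_le ((f z : Y) - f w) ((f x : Y) - f z)
  rw [show (z : X) - w + ((x : X) - z) = (x : X) - w by abel] at a1 b1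
  rw [show (f z : Y) - f w + ((f x : Y) - f z) = (f x : Y) - f w by abel] at a2 b2
  simp only [iso_norm_sub] at a2 b2
  exact abs_le.2 ⟨by linarith, by linarith⟩

/-- the tests at `z` have a solution for tangent vectors -/
theorem tangent_test [CompleteSpace Y] (R : Reg f p C) (z : sphere (0 : X) 1) {q : X}
    (hq : J (z : X) q = 0) :
    ∃ U : Y, ∀ w : sphere (0 : X) 1, 0 < J (z : X) ((z : X) - w) →
      J ((f z : Y) - f w) U = J ((z : X) - w) q := by
  classical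
  obtain ⟨t, htdef⟩ : ∃ t : ℕ → ℝ, t = fun k : ℕ => (1 : ℝ) / ((k : ℝ) + 1) := ⟨_, rfl⟩
  have ht0 : ∀ k, 0 < t k := fun k => by rw [htdef]; positivity
  have ht : Tendsto t atTop (𝓝 0) := by rw [htdef]; exact tendsto_one_div_add_atTop_nhds_zero_nat
  obtain ⟨N, hNdef⟩ : ∃ N : ℕ → ℝ, ∀ k, N k = ‖(z : X) + t k • q‖ :=
    ⟨fun k => ‖(z : X) + t k • q‖, fun _ => rfl⟩
  have hN1 : ∀ k, 1 ≤ N k := fun k => by
    have h := add_J_le (z : X) (t k • q)
    rw [map_smul, hq, smul_zero, add_zero, sph_norm z, ← hNdef] at h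
    exact h
  have hxm : ∀ k, ∃ x : sphere (0 : X) 1, (x : X) = (N k)⁻¹ • ((z : X) + t k • q) := fun k =>
    ⟨⟨_, mem_sphere_zero_iff_norm.2 (by
      rw [norm_smul_of_nonneg (inv_nonneg.2 (by linarith [hN1 k])), ← hNdef,
        inv_mul_cancel₀ (by linarith [hN1 k])])⟩, rfl⟩
  choose x hx using hxm
  -- the normalisation is of second order
  have hsec : Tendsto (fun k => (N k - 1) / t k) atTop (𝓝 0) := by
    rw [Metric.tendsto_atTop]
    intro ε hε
    obtain ⟨δ, hδ, H⟩ := upper R.sX (show 0 < ε / (2 * (‖q‖ + 1)) by positivity)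
    obtain ⟨K, hK⟩ := Metric.tendsto_atTop.1 ht (δ / (‖q‖ + 1)) (by positivity)
    refine ⟨K, fun k hk => ?_⟩
    have h1 := hK k hk
    rw [Real.dist_eq, sub_zero, abs_of_pos (ht0 k), lt_div_iff₀ (by positivity)] at h1
    have hn : ‖t k • q‖ = t k * ‖q‖ := norm_smul_of_nonneg (ht0 k).le _
    have h2 := H (z : X) (t k • q) (by
      rw [hn, sph_norm z, mul_one]
      linarith [ht0 k])
    rw [map_smul, hq, smul_zero, add_zero, sph_norm z, ← hNdef, hn] at h2
    rw [Real.dist_eq, sub_zero, abs_of_nonneg (div_nonneg (by linarith [hN1 k]) (ht0 k).le),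
      div_lt_iff₀ (ht0 k)]
    have h3 : ε / (2 * (‖q‖ + 1)) * ‖q‖ ≤ ε / 2 := by
      rw [div_mul_eq_mul_div, div_le_iff₀ (by positivity)]
      nlinarith
    have := mul_le_mul_of_nonneg_left h3 (ht0 k).le
    have := mul_pos (ht0 k) hε
    linarith
  have hNlim : Tendsto N atTop (𝓝 1) := by
    have h := (hsec.mul ht).add_const (1 : ℝ)
    simp only [zero_mul, zero_add] at h
    refine h.congr fun k => ?_
    rw [div_mul_cancel₀ _ (ht0 k).ne', sub_add_cancel]
  obtain ⟨P, hPdef⟩ : ∃ P : ℕ → X, P = fun k => (t k)⁻¹ • ((x k : X) - z) := ⟨_, rfl⟩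
  have hP : Tendsto P atTop (𝓝 q) := by
    have e : ∀ k, P k = (N k)⁻¹ • (q - ((N k - 1) / t k) • (z : X)) := fun k => by
      have h0 : N k ≠ 0 := by linarith [hN1 k]
      have := ht0 k
      simp only [hPdef, hx k]
      match_scalars <;> field_simp
      ring
    rw [show P = fun k => (N k)⁻¹ • (q - ((N k - 1) / t k) • (z : X)) from funext e]
    simpa using (hNlim.inv₀ one_ne_zero).smul ((hsec.smul_const (z : X)).const_sub q)
  have hPn : Tendsto (fun k => ‖P k‖) atTop (𝓝 ‖q‖) := hP.norm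
  obtain ⟨M, hM⟩ := hPn.bddAbove_range
  have hMk : ∀ k, ‖P k‖ ≤ M := fun k => hM ⟨k, rfl⟩
  obtain ⟨D, hDdef⟩ : ∃ D : ℕ → Y, D = fun k => (t k)⁻¹ • ((f (x k) : Y) - f z) := ⟨_, rfl⟩
  have hDn : ∀ k, ‖D k‖ = ‖P k‖ := fun k => by
    simp only [hDdef, hPdef, norm_smul, iso_norm_sub]
  obtain ⟨U, hU⟩ := exists_wl R.sY (x := D) (M := M) fun k => by rw [hDn]; exact hMk k
  refine ⟨U, fun w hw => ?_⟩
  set ψ := J ((f z : Y) - f w)
  set φ := J ((z : X) - w)
  have hlim : Tendsto (fun k => ψ (D k) - φ (P k)) atTop (𝓝 0) := by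
    rw [Metric.tendsto_atTop]
    intro ε hε
    have hM0 : 0 ≤ M := (norm_nonneg _).trans (hMk 0)
    obtain ⟨δ, hδ, H⟩ := first_order R hw (show 0 < ε / (2 * (M + 1)) by positivity)
    obtain ⟨K, hK⟩ := Metric.tendsto_atTop.1 ht (δ / (M + 1)) (by positivity)
    refine ⟨K, fun k hk => ?_⟩
    have h1 := hK k hk
    rw [Real.dist_eq, sub_zero, abs_of_pos (ht0 k), lt_div_iff₀ (by positivity)] at h1
    have hxk : ‖(x k : X) - z‖ = t k * ‖P k‖ := by
      rw [hPdef, norm_smul_of_nonneg (inv_nonneg.2 (ht0 k).le), mul_inv_cancel_left₀ (ht0 k).ne']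
    have h2 := H z w (x k) le_rfl (by
      rw [hxk]
      have := mul_le_mul_of_nonneg_left (hMk k) (ht0 k).le
      linarith [ht0 k])
    have e : ψ (D k) - φ (P k) =
        (t k)⁻¹ * (ψ ((f (x k) : Y) - f z) - φ ((x k : X) - z)) := by
      simp only [hDdef, hPdef, map_smul, smul_eq_mul]; ring
    rw [Real.dist_eq, sub_zero, e, abs_mul, abs_of_pos (inv_pos.2 (ht0 k)),
      inv_mul_lt_iff₀ (ht0 k)]
    refine h2.trans_lt ?_
    rw [hxk]
    have h3 : ε / (2 * (M + 1)) * M ≤ ε / 2 := by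
      rw [div_mul_eq_mul_div, div_le_iff₀ (by positivity)]
      nlinarith
    have h4 : ε / (2 * (M + 1)) * (t k * ‖P k‖) ≤ t k * (ε / (2 * (M + 1)) * M) := by
      rw [mul_left_comm]
      exact mul_le_mul_of_nonneg_left (mul_le_mul_of_nonneg_left (hMk k) (by positivity)) (ht0 k).le
    have := mul_le_mul_of_nonneg_left h3 (ht0 k).le
    have := mul_pos (ht0 k) hε
    linarith
  have h1 : Tendsto (fun k => ψ (D k)) atTop (𝓝 (φ q)) := by
    simpa using hlim.add ((φ.continuous.tendsto q).comp hP)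
  exact tendsto_nhds_unique (hU ψ) (h1.mono_left u0_le_atTop)

/-- the tests at `z` have a solution for the radial vector -/
theorem radial_test [CompleteSpace X] [CompleteSpace Y] (R : Reg f p C) (hR : Rough X p)
    (z : sphere (0 : X) 1) :
    ∃ U : Y, ∀ w : sphere (0 : X) 1, 0 < J (z : X) ((z : X) - w) →
      J ((f z : Y) - f w) U = J ((z : X) - w) (z : X) := by
  classical
  have hp := R.hp
  have hC := R.hC
  obtain ⟨c, hc, hν⟩ := hR z (sph_norm z)
  obtain ⟨σ, hσ, K, hK, hnear⟩ := near R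
  obtain ⟨ρ, hρ⟩ : ∃ ρ : ℕ → ℝ, ρ = fun k : ℕ => (1 : ℝ) / ((k : ℝ) + 1) := ⟨_, rfl⟩
  have hρ0 : ∀ k, 0 < ρ k := fun k => by rw [hρ]; positivity
  have hρ1 : ∀ k, ρ k ≤ 1 := fun k => by
    rw [hρ]; simp only; rw [div_le_one (by positivity)]
    linarith [(Nat.cast_nonneg k : (0 : ℝ) ≤ k)]
  have hρt : Tendsto ρ atTop (𝓝 0) := by rw [hρ]; exact tendsto_one_div_add_atTop_nhds_zero_nat
  have hst : ∀ k, ∃ (st : St f (ρ k)) (a : ℝ), c / (C + 1) * ρ k ^ p ≤ a ∧ a ≤ C * ρ k ^ p ∧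
      st.v - (z : X) = -(a • (z : X)) := by
    intro k
    obtain ⟨ν, hνb, hν0, hνr, hg⟩ := hν (ρ k) (hρ0 k) (hρ1 k)
    obtain ⟨P, hP⟩ : ∃ P : ℝ, (ulim fun n => ‖(z : X) + ν n‖) = P := ⟨_, rfl⟩
    rw [hP] at hg
    have hup := ulim_le_gain (sph_norm z) hνb hν0 hνr
    rw [hP] at hup
    have hgk := R.gX (ρ k) (hρ0 k).le
    have hr0 : 0 < ρ k ^ p := Real.rpow_pos_of_pos (hρ0 k) p
    have hr1 : ρ k ^ p ≤ 1 := Real.rpow_le_one (hρ0 k).le (hρ1 k) (by linarith)
    have hcr := mul_pos hc hr0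
    have hP1 : 1 ≤ P := by linarith
    have hP0 : 0 < P := by linarith
    have hPC : P ≤ C + 1 := by
      have := mul_le_mul_of_nonneg_left hr1 (show 0 ≤ C by linarith); linarith
    have htt : Tendsto (fun n => ‖(z : X) + ν n‖) U0 (𝓝 P) :=
      hP ▸ (hνb.const_add _).tendsto_norm
    have he0 : Tendsto (fun n => |‖(z : X) + ν n‖⁻¹ - P⁻¹| * ‖(z : X) + ν n‖) U0 (𝓝 0) := by
      simpa using (((htt.inv₀ hP0.ne').sub_const P⁻¹).abs).mul htt
    have hx1 : ∀ᶠ n in (U0 : Filter ℕ), ‖‖(z : X) + ν n‖⁻¹ • ((z : X) + ν n)‖ = 1 :=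
      (htt.eventually_const_lt hP0).mono fun n hn => by
        rw [norm_smul_of_nonneg (inv_nonneg.2 hn.le), inv_mul_cancel₀ hn.ne']
    obtain ⟨st, -, hstv⟩ := exists_st R (r := ρ k)
      (x := fun n => ‖(z : X) + ν n‖⁻¹ • ((z : X) + ν n)) (v := P⁻¹ • (z : X)) hx1
      (((hν0.const_add (z : X)).smul P⁻¹).congr_tendsto (he0.congr fun n => by
        rw [← sub_smul, norm_smul, Real.norm_eq_abs]))
      (by
        refine (rad_le_of hνb (bdd_sphere hx1) he0 (inv_nonneg.2 hP0.le) hνr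
          (Eventually.of_forall fun n => Eventually.of_forall fun m => ?_)).trans
          (mul_le_of_le_one_left (hρ0 k).le (inv_le_one_of_one_le₀ hP1))
        rw [show ‖(z : X) + ν n‖⁻¹ • ((z : X) + ν n) - ‖(z : X) + ν m‖⁻¹ • ((z : X) + ν m)
          = (‖(z : X) + ν n‖⁻¹ - P⁻¹) • ((z : X) + ν n)
            - (‖(z : X) + ν m‖⁻¹ - P⁻¹) • ((z : X) + ν m) + P⁻¹ • (ν n - ν m) by module]
        refine (norm_add_le _ _).trans (add_le_add ((norm_sub_le _ _).trans ?_) ?_)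
        · rw [norm_smul, norm_smul, Real.norm_eq_abs, Real.norm_eq_abs]
        · rw [norm_smul_of_nonneg (inv_nonneg.2 hP0.le)])
    refine ⟨st, (P - 1) / P, ?_, ?_, ?_⟩
    · rw [div_mul_eq_mul_div, div_le_div_iff₀ (by positivity) hP0]
      exact mul_le_mul (by linarith) hPC hP0.le (by linarith)
    · rw [div_le_iff₀ hP0]
      have := mul_le_mul_of_nonneg_left hP1 (show 0 ≤ C * ρ k ^ p by positivity)
      linarith
    · rw [hstv, sub_div, div_self hP0.ne', one_div]; module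
  choose st a ha0 ha1 hv using hst
  obtain ⟨c', hc'⟩ : ∃ c' : ℝ, c' = c / (C + 1) := ⟨_, rfl⟩
  have hc'0 : 0 < c' := by rw [hc']; positivity
  rw [← hc'] at ha0
  have hrp : ∀ k, 0 < ρ k ^ p := fun k => Real.rpow_pos_of_pos (hρ0 k) p
  have hapos : ∀ k, 0 < a k := fun k => (mul_pos hc'0 (hrp k)).trans_le (ha0 k)
  have hvn : ∀ k, ‖(st k).v - (z : X)‖ = a k := fun k => by
    rw [hv, norm_neg, norm_smul_of_nonneg (hapos k).le, sph_norm, mul_one]
  have hev : ∀ᶠ k in atTop, ρ k ≤ σ ∧ C * ρ k ^ p ≤ σ := by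
    filter_upwards [hρt.eventually_le_const (show 0 < σ / C by positivity)] with k hk
    rw [le_div_iff₀ (by positivity)] at hk
    have h1 : ρ k ≤ ρ k * C := le_mul_of_one_le_right (hρ0 k).le hC
    have h2 : ρ k ^ p ≤ ρ k := by
      simpa using Real.rpow_le_rpow_of_exponent_ge (hρ0 k) (hρ1 k) hp.le
    have h3 := mul_le_mul_of_nonneg_left h2 (show 0 ≤ C by linarith)
    exact ⟨by linarith, by linarith⟩
  obtain ⟨V, hVdef⟩ : ∃ V : ℕ → Y, V = fun k => if ρ k ≤ σ ∧ C * ρ k ^ p ≤ σ then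
      (-(a k)⁻¹) • ((st k).u - (f z : Y)) else 0 := ⟨_, rfl⟩
  have hVb : ∀ k, ‖V k‖ ≤ K * (1 + 1 / c') := fun k => by
    simp only [hVdef]
    split
    · rename_i h
      have h1 := hnear (ρ k) (st k) z (hρ0 k).le h.1 (by rw [hvn]; exact (ha1 k).trans h.2)
      rw [hvn] at h1
      rw [norm_smul, norm_neg, Real.norm_eq_abs, abs_of_pos (inv_pos.2 (hapos k)),
        inv_mul_le_iff₀ (hapos k)]
      refine h1.trans ?_
      have h2 : ρ k ^ p ≤ a k * (1 / c') := by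
        rw [mul_one_div, le_div_iff₀ hc'0]; linarith [ha0 k]
      have := mul_le_mul_of_nonneg_left h2 (show 0 ≤ K by linarith)
      linarith
    · rw [norm_zero]; positivity
  obtain ⟨U, hU⟩ := exists_wl R.sY (x := V) hVb
  refine ⟨U, fun w hw => ?_⟩
  set ψ := J ((f z : Y) - f w)
  set φ := J ((z : X) - w)
  have h1 : Tendsto (fun k => ψ (V k)) atTop (𝓝 (φ (z : X))) := by
    rw [Metric.tendsto_atTop]
    intro ε hε
    obtain ⟨r₀, hr₀, H⟩ := key R hw (show 0 < ε * c' / 2 by positivity) (show 0 ≤ C by linarith)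
    obtain ⟨N, hN⟩ := eventually_atTop.1 (hev.and (hρt.eventually_le_const hr₀))
    refine ⟨N, fun k hk => ?_⟩
    obtain ⟨hk1, hk2⟩ := hN k hk
    have h2 := H z w le_rfl (ρ k) (st k) (hρ0 k) hk2 (by rw [hvn]; exact ha1 k)
    simp only [hVdef, if_pos hk1, map_smul, smul_eq_mul]
    rw [hv, map_neg, map_smul, smul_eq_mul] at h2
    rw [Real.dist_eq]
    have e : -(a k)⁻¹ * ψ ((st k).u - (f z : Y)) - φ (z : X)
        = -((a k)⁻¹ * (ψ ((st k).u - (f z : Y)) - -(a k * φ (z : X)))) := by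
      field_simp [(hapos k).ne']
      ring
    rw [e, abs_neg, abs_mul, abs_of_pos (inv_pos.2 (hapos k)), inv_mul_lt_iff₀ (hapos k)]
    refine h2.trans_lt ?_
    have := mul_le_mul_of_nonneg_left (ha0 k) (show 0 ≤ ε / 2 by positivity)
    have := mul_pos (hapos k) hε
    linarith
  exact tendsto_nhds_unique (hU ψ) (h1.mono_left u0_le_atTop)

/-- the tests at `z` determine a vector -/
theorem tests_unique (R : Reg f p C) (z : sphere (0 : X) 1) {a b : Y}
    (h : ∀ w : sphere (0 : X) 1, 0 < J (z : X) ((z : X) - w) →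
      J ((f z : Y) - f w) a = J ((f z : Y) - f w) b) : a = b := by
  obtain ⟨τ', hτ', hback⟩ := chord_back R (show (0 : ℝ) < 1 / 10 by norm_num)
  have h0 := sep R.sY (sph_norm (f z)) (k := a - b) (B := 0) fun e he hae => by
    obtain ⟨w, L, hL, hτw, hw⟩ := hback z e he hae
    have h1 := h w (hτ'.trans_le hτw)
    rw [hw, J_smul_eq R.sY (norm_ne_zero_iff.1 (by rw [he]; norm_num)) hL] at h1
    rw [map_sub, h1, sub_self, abs_zero]
  rw [mul_zero] at h0
  exact sub_eq_zero.1 (norm_le_zero_iff.1 h0)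

/-- the linear isometry carried by the tests at `z`; it is the derivative of `f` there -/
theorem exists_T [CompleteSpace X] [CompleteSpace Y] (R : Reg f p C) (hR : Rough X p) (hA : Anti f)
    (z : sphere (0 : X) 1) :
    ∃ T : X ≃ₗᵢ[ℝ] Y,
      (∀ w : sphere (0 : X) 1, 0 < J (z : X) ((z : X) - w) →
        ∀ q : X, J ((f z : Y) - f w) (T q) = J ((z : X) - w) q) ∧
      (∀ q : X, J (f z : Y) (T q) = J (z : X) q) ∧
      ∀ η : ℝ, 0 < η → ∃ δ : ℝ, 0 < δ ∧ ∀ x : sphere (0 : X) 1, ‖(x : X) - z‖ ≤ δ →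
        ‖(f x : Y) - f z - T ((x : X) - z)‖ ≤ η * ‖(x : X) - z‖ := by
  classical
  have hzne : (z : X) ≠ 0 := norm_ne_zero_iff.1 (by rw [sph_norm]; norm_num)
  obtain ⟨U, hU⟩ := radial_test R hR z
  have hex : ∀ q : X, ∃ V : Y, ∀ w : sphere (0 : X) 1, 0 < J (z : X) ((z : X) - w) →
      J ((f z : Y) - f w) V = J ((z : X) - w) q := by
    intro q
    obtain ⟨D, hD⟩ := tangent_test R z (q := q - J (z : X) q • (z : X))
      (by rw [map_sub, map_smul, J_self, sph_norm, smul_eq_mul, mul_one, sub_self])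
    refine ⟨D + J (z : X) q • U, fun w hw => ?_⟩
    rw [map_add, map_smul, hD w hw, hU w hw, map_sub, map_smul]
    simp
  choose T₀ hT₀ using hex
  have hadd : ∀ a b, T₀ (a + b) = T₀ a + T₀ b := fun a b => tests_unique R z fun w hw => by
    rw [map_add, hT₀ _ w hw, hT₀ _ w hw, hT₀ _ w hw, map_add]
  have hsmul : ∀ (c : ℝ) a, T₀ (c • a) = c • T₀ a := fun c a => tests_unique R z fun w hw => by
    rw [map_smul, hT₀ _ w hw, hT₀ _ w hw, map_smul]
  let T₁ : X →ₗ[ℝ] Y := { toFun := T₀, map_add' := hadd, map_smul' := hsmul }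
  have hT₁ : ∀ q, ∀ w : sphere (0 : X) 1, 0 < J (z : X) ((z : X) - w) →
      J ((f z : Y) - f w) (T₁ q) = J ((z : X) - w) q := hT₀
  -- the functional of `f z`
  obtain ⟨zn, hzn⟩ : ∃ zn : sphere (0 : X) 1, (zn : X) = -(z : X) :=
    ⟨⟨-(z : X), by simp [sph_norm z]⟩, rfl⟩
  have hJz : ∀ q, J (f z : Y) (T₁ q) = J (z : X) q := by
    intro q
    have h2 : (z : X) - zn = (2 : ℝ) • (z : X) := by rw [hzn]; module
    have h1 := hT₁ q zn (by rw [h2, map_smul, J_self, sph_norm]; norm_num)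
    have hY : J (f z : Y) = J ((f z : Y) - f zn) := by
      have hn : ‖(f z : Y) - f zn‖ = 2 := by
        rw [iso_norm_sub, h2, norm_smul, sph_norm]; norm_num
      refine J_uniq R.sY (norm_pos_iff.1 (by rw [hn]; norm_num)) (J_le _) ?_
      rw [map_sub, J_self, sph_norm, hA z zn hzn, hn]; norm_num
    rw [hY, h1, h2, J_smul_eq R.sX hzne two_pos]
  -- exact length in transversal directions
  have hlen : ∀ q, 0 < J (z : X) q → ‖T₁ q‖ = ‖q‖ := by
    intro q hq
    have hTq : 0 < ‖T₁ q‖ := (hJz q ▸ hq).trans_le (J_le _ _)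
    have hq0 : 0 < ‖q‖ := hq.trans_le (J_le _ _)
    refine le_antisymm ?_ ?_
    · obtain ⟨e, he⟩ : ∃ e : Y, e = ‖T₁ q‖⁻¹ • T₁ q := ⟨_, rfl⟩
      have he1 : ‖e‖ = 1 := by
        rw [he, norm_smul_of_nonneg (inv_nonneg.2 hTq.le), inv_mul_cancel₀ hTq.ne']
      have hJe : 0 < J (f z : Y) e := by
        rw [he, map_smul, smul_eq_mul, hJz]; positivity
      obtain ⟨τ', hτ', hback⟩ := chord_back R hJe
      obtain ⟨w, L, hL, hτw, hw⟩ := hback z e he1 le_rfl
      have h1 := hT₁ q w (hτ'.trans_le hτw)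
      rw [hw, he, J_smul_eq R.sY (smul_ne_zero (inv_ne_zero hTq.ne') (norm_pos_iff.1 hTq)) hL,
        J_smul_eq R.sY (norm_pos_iff.1 hTq) (inv_pos.2 hTq), J_self] at h1
      rw [h1]; exact J_le _ _
    · obtain ⟨e, he⟩ : ∃ e : X, e = ‖q‖⁻¹ • q := ⟨_, rfl⟩
      have he1 : ‖e‖ = 1 := by
        rw [he, norm_smul_of_nonneg (inv_nonneg.2 hq0.le), inv_mul_cancel₀ hq0.ne']
      have hJe : 0 < J (z : X) e := by rw [he, map_smul, smul_eq_mul]; positivity
      obtain ⟨l, hl, hch⟩ := exists_chord R.sX hJe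
      obtain ⟨L, hL, -, hw⟩ := hch (z : X) e (sph_norm z) he1 le_rfl
      have hL0 : 0 < L := hl.trans_le hL
      obtain ⟨w, hwe⟩ : ∃ w : sphere (0 : X) 1, (w : X) = (z : X) - L • e :=
        ⟨⟨_, mem_sphere_zero_iff_norm.2 hw⟩, rfl⟩
      have hd : (z : X) - w = L • e := by rw [hwe, sub_sub_cancel]
      have h1 := hT₁ q w (by rw [hd, map_smul, smul_eq_mul]; positivity)
      rw [hd, he, J_smul_eq R.sX (smul_ne_zero (inv_ne_zero hq0.ne') (norm_pos_iff.1 hq0)) hL0,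
        J_smul_eq R.sX (norm_pos_iff.1 hq0) (inv_pos.2 hq0), J_self] at h1
      rw [← h1]; exact J_le _ _
  have hnorm : ∀ q, ‖T₁ q‖ = ‖q‖ := by
    intro q
    wlog hq : 0 ≤ J (z : X) q generalizing q
    · have := this (-q) (by rw [map_neg]; linarith)
      rwa [map_neg, norm_neg, norm_neg] at this
    have hTz : ‖T₁ (z : X)‖ = 1 := by
      rw [hlen _ (by rw [J_self, sph_norm]; norm_num), sph_norm]
    have hpert : ∀ ε : ℝ, 0 < ε → |‖T₁ q‖ - ‖q‖| ≤ 2 * ε := by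
      intro ε hε
      have h1 := hlen (q + ε • (z : X))
        (by rw [map_add, map_smul, J_self, sph_norm, smul_eq_mul, mul_one]; linarith)
      rw [map_add, map_smul] at h1
      have a1 := abs_le.1 (abs_norm_sub_norm_le (q + ε • (z : X)) q)
      have a2 := abs_le.1 (abs_norm_sub_norm_le (T₁ q + ε • T₁ (z : X)) (T₁ q))
      simp only [add_sub_cancel_left, norm_smul_of_nonneg hε.le, sph_norm, hTz, mul_one] at a1 a2
      exact abs_le.2 ⟨by linarith, by linarith⟩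
    refine eq_of_forall_dist_le fun ε hε => ?_
    rw [Real.dist_eq]
    linarith [hpert (ε / 2) (half_pos hε)]
  -- onto
  have hsurj : Function.Surjective T₁ := by
    intro y
    obtain ⟨q, hq⟩ := tangent_test (X := Y) (Y := X) R.symm (f z)
      (q := y - J (f z : Y) y • T₁ (z : X))
      (by rw [map_sub, map_smul, hJz, J_self, sph_norm, smul_eq_mul, mul_one, sub_self])
    refine ⟨q + J (f z : Y) y • (z : X), tests_unique R z fun w hw => ?_⟩
    obtain ⟨τ', hτ', hadm⟩ := R.adm _ hw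
    have h1 := hq (f w) (hτ'.trans_le (hadm z w le_rfl))
    rw [IsometryEquiv.symm_apply_apply, IsometryEquiv.symm_apply_apply, map_sub, map_smul,
      hT₁ _ w hw, smul_eq_mul] at h1
    rw [hT₁ _ w hw, map_add, map_smul, smul_eq_mul]
    linarith
  let Ti : X →ₗᵢ[ℝ] Y := ⟨T₁, hnorm⟩
  refine ⟨LinearIsometryEquiv.ofSurjective Ti hsurj, fun w hw q => hT₁ q w hw, hJz,
    fun η hη => ?_⟩
  obtain ⟨τ', hτ', hback⟩ := chord_back R (show (0 : ℝ) < 1 / 10 by norm_num)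
  obtain ⟨δ, hδ, H⟩ := first_order R hτ' (show 0 < η / 7 by positivity)
  refine ⟨δ, hδ, fun x hx => ?_⟩
  have h0 := sep R.sY (sph_norm (f z)) (k := (f x : Y) - f z - T₁ ((x : X) - z))
    (B := η / 7 * ‖(x : X) - z‖) fun e he hae => by
      obtain ⟨w, L, hL, hτw, hw⟩ := hback z e he hae
      have h1 := H z w x hτw hx
      rw [← hT₁ ((x : X) - z) w (hτ'.trans_le hτw), ← map_sub, hw,
        J_smul_eq R.sY (norm_ne_zero_iff.1 (by rw [he]; norm_num)) hL] at h1
      exact h1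
  exact h0.trans (le_of_eq (by ring))

end Vale.Agent.P084.Asym
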