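import Vale.Agent.P084.Asym.Lin
import Vale.Agent.P084.Smooth.Scale

/-!
P084, asymptotic classes: sphere isometries are odd, and the hypotheses pass to the target.
-/

open Filter Topology Metric

namespace Vale.Agent.P084.Asym

open Vale.Agent.P084.Smooth

universe u v

variable {X : Type u} [NormedAddCommGroup X] [NormedSpace ℝ X]
  {Y : Type v} [NormedAddCommGroup Y] [NormedSpace ℝ Y]

/-- the antipodal map of the sphere -/
def negSph (X : Type u) [NormedAddCommGroup X] [NormedSpace ℝ X] :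
    sphere (0 : X) 1 ≃ᵢ sphere (0 : X) 1 where
  toEquiv := Equiv.neg _
  isometry_toFun := Isometry.of_dist_eq fun a b => by
    show dist (-(a : X)) (-(b : X)) = dist (a : X) b
    rw [dist_neg_neg]

theorem negSph_apply (a : sphere (0 : X) 1) : (negSph X a : X) = -(a : X) := rfl

theorem norm_add_eq (f : sphere (0 : X) 1 ≃ᵢ sphere (0 : Y) 1)
    (hodd : ∀ a, (f (negSph X a) : Y) = -(f a : Y)) (a b : sphere (0 : X) 1) :
    ‖(f a : Y) + f b‖ = ‖(a : X) + b‖ := by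
  have h := iso_norm_sub f a (negSph X b)
  rwa [hodd, negSph_apply, sub_neg_eq_add, sub_neg_eq_add] at h

/-- near points of a uniformly smooth sphere have long sums -/
theorem sum_long (h : SmoothU X) {η : ℝ} (hη : 0 < η) :
    ∃ δ : ℝ, 0 < δ ∧ ∀ a b : X, ‖a‖ = 1 → ‖b‖ = 1 → ‖a - b‖ ≤ δ →
      2 - η * ‖a - b‖ ≤ ‖a + b‖ := by
  obtain ⟨t, ht, H⟩ := h η hη
  refine ⟨min 1 t, lt_min one_pos ht, fun a b ha hb hab => ?_⟩
  simp only [le_min_iff] at hab
  obtain ⟨s, hs⟩ : ∃ s : ℝ, s = ‖a + b‖ := ⟨_, rfl⟩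
  rw [← hs]
  have hs1 : 1 ≤ s := by
    have h1 := norm_sub_le_norm_add ((2 : ℝ) • a) (b - a)
    rw [norm_smul_of_nonneg (by norm_num), ha, norm_sub_rev b a,
      show (2 : ℝ) • a + (b - a) = a + b by module, ← hs] at h1
    linarith
  have hs0 : 0 < s := by linarith
  have hnx : ‖s⁻¹ • (a + b)‖ = 1 := by
    rw [norm_smul_of_nonneg (inv_nonneg.2 hs0.le), ← hs, inv_mul_cancel₀ hs0.ne']
  have h1 := H (s⁻¹ • (a + b)) (s⁻¹ • (a - b)) hnx (by
    rw [norm_smul_of_nonneg (inv_nonneg.2 hs0.le), inv_mul_le_iff₀ hs0]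
    have : t ≤ s * t := le_mul_of_one_le_left ht.le hs1
    linarith)
  rw [← smul_add, ← smul_sub, norm_smul_of_nonneg (inv_nonneg.2 hs0.le),
    norm_smul_of_nonneg (inv_nonneg.2 hs0.le), norm_smul_of_nonneg (inv_nonneg.2 hs0.le),
    show a + b + (a - b) = (2 : ℝ) • a by module, show a + b - (a - b) = (2 : ℝ) • b by module,
    norm_smul_of_nonneg (by norm_num), norm_smul_of_nonneg (by norm_num), ha, hb] at h1
  have h2 := mul_le_mul_of_nonneg_left h1 hs0.le
  field_simp at h2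
  nlinarith [norm_nonneg (a - b)]

/-- long sums at near points give uniform smoothness -/
theorem smooth_of_sum_long
    (h : ∀ η : ℝ, 0 < η → ∃ δ : ℝ, 0 < δ ∧ ∀ a b : Y, ‖a‖ = 1 → ‖b‖ = 1 → ‖a - b‖ ≤ δ →
      2 - η * ‖a - b‖ ≤ ‖a + b‖) : SmoothU Y := by
  intro ε hε
  obtain ⟨δ, hδ, H⟩ := h (ε / 16) (by positivity)
  refine ⟨min (1 / 4) (min (δ / 6) (ε / 12)), by positivity, fun x h' hx hh => ?_⟩
  simp only [le_min_iff] at hh
  obtain ⟨t, ht⟩ : ∃ t : ℝ, t = ‖h'‖ := ⟨_, rfl⟩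
  obtain ⟨a, ha⟩ : ∃ a : ℝ, a = ‖x + h'‖ := ⟨_, rfl⟩
  obtain ⟨b, hb⟩ : ∃ b : ℝ, b = ‖x - h'‖ := ⟨_, rfl⟩
  rw [← ht] at hh
  rw [← ha, ← hb, ← ht]
  have ht0 : 0 ≤ t := by rw [ht]; exact norm_nonneg _
  have ha' := abs_le.1 (abs_norm_sub_norm_le (x + h') x)
  have hb' := abs_le.1 (abs_norm_sub_norm_le (x - h') x)
  rw [add_sub_cancel_left, ← ha, ← ht, hx] at ha'
  rw [sub_sub_cancel_left, norm_neg, ← hb, ← ht, hx] at hb'
  have ha0 : 0 < a := by linarith
  have hb0 : 0 < b := by linarith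
  obtain ⟨u, hu, hu'⟩ : ∃ u : Y, a • u = x + h' ∧ ‖u‖ = 1 :=
    ⟨a⁻¹ • (x + h'), smul_inv_smul₀ ha0.ne' _, by
      rw [norm_smul_of_nonneg (inv_nonneg.2 ha0.le), ← ha, inv_mul_cancel₀ ha0.ne']⟩
  obtain ⟨v, hv, hv'⟩ : ∃ v : Y, b • v = x - h' ∧ ‖v‖ = 1 :=
    ⟨b⁻¹ • (x - h'), smul_inv_smul₀ hb0.ne' _, by
      rw [norm_smul_of_nonneg (inv_nonneg.2 hb0.le), ← hb, inv_mul_cancel₀ hb0.ne']⟩
  have hab : |b - a| ≤ 2 * t := abs_le.2 ⟨by linarith, by linarith⟩
  have huv : ‖u - v‖ ≤ 6 * t := by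
    have e : a • (u - v) = (2 : ℝ) • h' + (b - a) • v := by
      rw [smul_sub, hu, sub_smul, hv]; module
    have h1 : ‖a • (u - v)‖ = a * ‖u - v‖ := norm_smul_of_nonneg ha0.le _
    rw [e] at h1
    have h2 := norm_add_le ((2 : ℝ) • h') ((b - a) • v)
    rw [h1, norm_smul_of_nonneg (by norm_num), norm_smul, hv', mul_one, Real.norm_eq_abs, ← ht]
      at h2
    nlinarith [norm_nonneg (u - v)]
  have hsum := H u v hu' hv' (huv.trans (by linarith))
  have e2 : ((a + b) / 2) • (u + v) = (2 : ℝ) • x + (-((a - b) / 2)) • (u - v) := by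
    have : (2 : ℝ) • x = a • u + b • v := by rw [hu, hv]; module
    rw [this]; module
  have h2 := congrArg norm e2
  rw [norm_smul_of_nonneg (by linarith)] at h2
  have h3 := norm_add_le ((2 : ℝ) • x) ((-((a - b) / 2)) • (u - v))
  rw [← h2, norm_smul_of_nonneg (by norm_num), hx, norm_smul, Real.norm_eq_abs, abs_neg, abs_div,
    abs_two, abs_sub_comm] at h3
  have h4 : |b - a| / 2 * ‖u - v‖ ≤ t * (6 * t) :=
    mul_le_mul (by linarith) huv (norm_nonneg _) ht0
  have h5 := mul_le_mul_of_nonneg_left hsum (show 0 ≤ (a + b) / 2 by linarith)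
  have h6 : (a + b) / 2 * (ε / 16 * ‖u - v‖) ≤ 5 / 4 * (ε / 16 * (6 * t)) :=
    mul_le_mul (by linarith) (mul_le_mul_of_nonneg_left huv (by positivity)) (by positivity)
      (by norm_num)
  have h7 : t * (6 * t) ≤ ε / 12 * (6 * t) := mul_le_mul_of_nonneg_right hh.2.2 (by linarith)
  linarith [mul_nonneg hε.le ht0]

/-- a self map preserving norming functionals keeps transversality -/
theorem adm_of_J (h : SmoothU X) (g : sphere (0 : X) 1 ≃ᵢ sphere (0 : X) 1)
    (hg : ∀ a, J (g a : X) = J (a : X)) : Adm g := by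
  intro τ hτ
  obtain ⟨δ, hδ, H⟩ := J_close h (half_pos hτ)
  refine ⟨δ, hδ, fun z w hzw => ?_⟩
  by_contra hcon
  push Not at hcon
  rw [map_sub, J_self, sph_norm, hg] at hcon
  have h1 := H (z : X) (g w : X) (sph_norm z) (sph_norm (g w)) (by linarith) (w : X)
  rw [hg, J_self, sph_norm, mul_one] at h1
  rw [map_sub, J_self, sph_norm] at hzw
  linarith [(abs_le.1 h1).1]

/-- an odd isometry keeps transversality -/
theorem adm_of_odd (hX : SmoothU X) (f : sphere (0 : X) 1 ≃ᵢ sphere (0 : Y) 1)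
    (hodd : ∀ a, (f (negSph X a) : Y) = -(f a : Y)) : Adm f := by
  intro τ hτ
  obtain ⟨δ, hδ, H⟩ := J_close hX (show 0 < τ / 2 by positivity)
  refine ⟨min δ (τ / 4), by positivity, fun z w hzw => ?_⟩
  by_contra hcon
  push Not at hcon
  rw [map_sub, J_self, sph_norm, lt_min_iff] at hcon
  have h1 := add_J_le (f z : Y) (f w : Y)
  rw [sph_norm, norm_add_eq f hodd] at h1
  obtain ⟨s, hs⟩ : ∃ s : ℝ, s = ‖(z : X) + w‖ := ⟨_, rfl⟩
  rw [← hs] at h1
  rw [map_sub, J_self, sph_norm] at hzw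
  have hw1 : J (z : X) (w : X) ≥ -1 := by
    have := neg_le_J (z : X) (w : X); rw [sph_norm] at this; linarith
  have hs2 : 2 - min δ (τ / 4) < s := by
    rcases min_choice δ (τ / 4) with e | e <;> rw [e] <;> linarith
  have hs0 : 0 < s := by linarith [min_le_right δ (τ / 4)]
  have hne : (z : X) + w ≠ 0 := norm_pos_iff.1 (by rw [← hs]; exact hs0)
  have e := J_self ((z : X) + w)
  rw [map_add, ← hs] at e
  have bz := (J_le ((z : X) + w) (z : X)).trans (sph_norm z).le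
  have bw := (J_le ((z : X) + w) (w : X)).trans (sph_norm w).le
  have h2 := H (s⁻¹ • ((z : X) + w)) (z : X)
    (by rw [norm_smul_of_nonneg (inv_nonneg.2 hs0.le), ← hs, inv_mul_cancel₀ hs0.ne'])
    (sph_norm z)
    (by rw [J_smul_eq hX hne (inv_pos.2 hs0)]; linarith [min_le_left δ (τ / 4)]) (w : X)
  rw [J_smul_eq hX hne (inv_pos.2 hs0), sph_norm, mul_one] at h2
  linarith [(abs_le.1 h2).2, min_le_right δ (τ / 4)]

/-- every sphere isometry from the source is odd -/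
theorem odd [CompleteSpace X] {p C : ℝ} (hp : 1 < p) (hC : 1 ≤ C) (hS : SmoothU X)
    (hg : ∀ r, 0 ≤ r → gain X r ≤ C * r ^ p) (hR : Rough X p)
    (f : sphere (0 : X) 1 ≃ᵢ sphere (0 : Y) 1) (a : sphere (0 : X) 1) :
    (f (negSph X a) : Y) = -(f a : Y) := by
  set g := (((negSph X).trans f).trans (negSph Y)).trans f.symm with hgdef
  have hgapp : ∀ b, g b = f.symm (negSph Y (f (negSph X b))) := fun b => rfl
  have hJ : ∀ b, J (g b : X) = J (b : X) := by
    intro b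
    have h := iso_norm_sub f (g b) (negSph X b)
    rw [negSph_apply, sub_neg_eq_add, hgapp, IsometryEquiv.apply_symm_apply, negSph_apply,
      show -(f (negSph X b) : Y) - f (negSph X b) = -((2 : ℝ) • (f (negSph X b) : Y)) by module,
      norm_neg, norm_smul, sph_norm] at h
    norm_num at h
    exact ((J_dist_two hS (sph_norm (g b)) (sph_norm b) (by rw [hgapp]; exact h.symm))).2
  have hJ' : ∀ b, J (g.symm b : X) = J (b : X) := fun b => by
    have := hJ (g.symm b)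
    rw [IsometryEquiv.apply_symm_apply] at this
    exact this.symm
  have R : Reg g p C := ⟨hp, hC, hS, hS, hg, hg, adm_of_J hS g hJ, adm_of_J hS g.symm hJ'⟩
  have hA : Anti g := fun z zn hzn => by
    have hzne : (z : X) ≠ 0 := norm_ne_zero_iff.1 (by rw [sph_norm]; norm_num)
    have h1 := J_self (g zn : X)
    rw [hJ zn, hzn, J_neg_eq hS hzne, sph_norm, neg_apply] at h1
    rw [hJ z]; linarith
  obtain ⟨G, hG⟩ := linear_of_reg R hR hA
  have hid : ∀ k : X, G k = k := by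
    intro k
    by_contra hne
    have hpos : 0 < ‖G k - k‖ := norm_pos_iff.2 (sub_ne_zero.2 hne)
    obtain ⟨x, hx⟩ : ∃ x : sphere (0 : X) 1, (x : X) = ‖G k - k‖⁻¹ • (G k - k) :=
      ⟨⟨_, mem_sphere_zero_iff_norm.2 (by
        rw [norm_smul_of_nonneg (inv_nonneg.2 hpos.le), inv_mul_cancel₀ hpos.ne'])⟩, rfl⟩
    have hxne : (x : X) ≠ 0 := norm_ne_zero_iff.1 (by rw [sph_norm]; norm_num)
    have h1 : J (x : X) (G k) = J (x : X) k := by
      have h2 := J_uniq hS hxne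
        (ψ := (J (G (x : X))).comp G.toLinearIsometry.toContinuousLinearMap)
        (fun b => (J_le _ _).trans (G.norm_map b).le)
        ((J_self _).trans (G.norm_map _))
      rw [hG x, hJ x] at h2
      exact congrArg (fun L : StrongDual ℝ X => L k) h2
    have h3 : J (x : X) (G k - k) = ‖G k - k‖ := by
      rw [hx, J_smul_eq hS (sub_ne_zero.2 hne) (inv_pos.2 hpos), J_self]
    rw [map_sub, h1, sub_self] at h3
    linarith
  have hga : g a = a := Subtype.ext (by rw [← hG a, hid])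
  rw [hgapp] at hga
  have := congrArg f hga
  rw [IsometryEquiv.apply_symm_apply] at this
  rw [← this, negSph_apply, neg_neg]

/-- one step of the bound for the gain of the target -/
theorem gain_step [CompleteSpace X] (hS : SmoothU X)
    (f : sphere (0 : X) 1 ≃ᵢ sphere (0 : Y) 1) {r : ℝ} (hr : 0 ≤ r) (hr1 : r ≤ 1 / 20) :
    gain Y r ≤ (1 + r) * (2 * gain X r + 3 / 2 * gain Y (r / (3 / 2))) := by
  classical
  refine Real.sSup_le (fun d hd => ?_)
    (by have := gain_nonneg (X := X) r; have := gain_nonneg (X := Y) (r / (3 / 2)); positivity)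
  have hd1 := gainSet_le hd
  have hd0 := gainSet_nonneg hd
  obtain ⟨y, μ, hy, hμb, hμ0, hμr, rfl⟩ := hd
  obtain ⟨P, hP⟩ : ∃ P : ℝ, (ulim fun n => ‖y + μ n‖) = P := ⟨_, rfl⟩
  rw [hP] at hd0 hd1 ⊢
  have hP1 : 1 ≤ P := by linarith
  have hP0 : 0 < P := by linarith
  have htt : Tendsto (fun n => ‖y + μ n‖) U0 (𝓝 P) := hP ▸ (hμb.const_add _).tendsto_norm
  have he0 : Tendsto (fun n => |‖y + μ n‖⁻¹ - P⁻¹| * ‖y + μ n‖) U0 (𝓝 0) := by
    simpa using (((htt.inv₀ hP0.ne').sub_const P⁻¹).abs).mul htt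
  obtain ⟨η, hη⟩ : ∃ η : ℕ → Y, η = fun n => ‖y + μ n‖⁻¹ • (y + μ n) := ⟨_, rfl⟩
  have hη1 : ∀ᶠ n in (U0 : Filter ℕ), ‖η n‖ = 1 :=
    (htt.eventually_const_lt hP0).mono fun n hn => by
      rw [hη, norm_smul_of_nonneg (inv_nonneg.2 hn.le), inv_mul_cancel₀ hn.ne']
  have hηw : WL η (P⁻¹ • y) := by
    rw [hη]
    exact ((hμ0.const_add y).smul P⁻¹).congr_tendsto (he0.congr fun n => by
      rw [← sub_smul, norm_smul, Real.norm_eq_abs])
  have hηr : rad η ≤ r := by
    refine (rad_le_of hμb (bdd_sphere hη1) he0 (inv_nonneg.2 hP0.le) hμr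
      (Eventually.of_forall fun n => Eventually.of_forall fun m => ?_)).trans
      (mul_le_of_le_one_left hr (inv_le_one_of_one_le₀ hP1))
    rw [hη]
    simp only
    rw [show ‖y + μ n‖⁻¹ • (y + μ n) - ‖y + μ m‖⁻¹ • (y + μ m)
      = (‖y + μ n‖⁻¹ - P⁻¹) • (y + μ n) - (‖y + μ m‖⁻¹ - P⁻¹) • (y + μ m)
        + P⁻¹ • (μ n - μ m) by module]
    refine (norm_add_le _ _).trans (add_le_add ((norm_sub_le _ _).trans ?_) ?_)
    · rw [norm_smul, norm_smul, Real.norm_eq_abs, Real.norm_eq_abs]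
    · rw [norm_smul_of_nonneg (inv_nonneg.2 hP0.le)]
  obtain ⟨x, hx⟩ : ∃ x : ℕ → X, x = fun n => if h : ‖η n‖ = 1 then
      (f.symm ⟨η n, mem_sphere_zero_iff_norm.2 h⟩ : X) else 0 := ⟨_, rfl⟩
  obtain ⟨v, hv⟩ := exists_wl hS (x := x) (M := 1) fun n => by
    simp only [hx]
    split
    · exact (sph_norm _).le
    · simp
  obtain ⟨st, hstx, hsty, hstv, hstu⟩ :
      ∃ st : St f.symm r, st.x = η ∧ st.y = x ∧ st.v = P⁻¹ • y ∧ st.u = v :=
    ⟨⟨η, x, P⁻¹ • y, v, hη1.mono fun n hn =>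
      ⟨⟨η n, mem_sphere_zero_iff_norm.2 hn⟩, rfl, by simp only [hx, dif_pos hn]⟩, hηw, hv, hηr⟩,
      rfl, rfl, rfl, rfl⟩
  have hηb : Bdd η := bdd_sphere hη1
  have hx1 : ∀ᶠ n in (U0 : Filter ℕ), ‖x n‖ = 1 := hsty ▸ st.y_one
  have hxb : Bdd x := bdd_sphere hx1
  have hxr : rad x ≤ r := by rw [← hsty, st.rad_y, hstx]; exact hηr
  -- near the preimage of `y`
  have hPy : ‖P⁻¹ • y - y‖ ≤ P - 1 := by
    rw [show P⁻¹ • y - y = -((1 - P⁻¹) • y) by module, norm_neg, norm_smul, hy, mul_one,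
      Real.norm_eq_abs, abs_of_nonneg (sub_nonneg.2 (inv_le_one_of_one_le₀ hP1))]
    have : (1 - P⁻¹) = (P - 1) * P⁻¹ := by field_simp
    rw [this]
    exact mul_le_of_le_one_right (by linarith) (inv_le_one_of_one_le₀ hP1)
  obtain ⟨y₀, hy₀⟩ : ∃ y₀ : sphere (0 : Y) 1, (y₀ : Y) = y :=
    ⟨⟨y, mem_sphere_zero_iff_norm.2 hy⟩, rfl⟩
  have hvx : ‖v - (f.symm y₀ : X)‖ ≤ 2 * r := by
    refine (WL.norm_le (hxb.sub_const _) (hv.sub_const _)).trans ?_
    rw [← hsty, st.ulim_eq y₀, hstx, hy₀]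
    have h1 := norm_le_rad' hηb hηw
    refine le_trans (le_of_tendsto_of_tendsto' (hηb.sub_const y).tendsto_norm
      ((hηb.sub_const (P⁻¹ • y)).tendsto_norm.add_const (P - 1))
      fun n => (norm_sub_le_norm_sub_add_norm_sub _ (P⁻¹ • y) _).trans (by linarith))
      (by linarith)
  have hv1 : ‖v‖ ≤ 1 := by
    refine (WL.norm_le hxb hv).trans (le_of_eq (ulim_eq ?_))
    exact tendsto_const_nhds.congr' (hx1.mono fun n hn => hn.symm)
  have hv0 : 1 - 2 * r ≤ ‖v‖ := by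
    have := norm_sub_norm_le (f.symm y₀ : X) v
    rw [sph_norm, norm_sub_rev] at this
    linarith
  have hvG : 1 - ‖v‖ ≤ 2 * gain X r := by
    have hup := ulim_add_le_small (x := v) (r := r) (hxb.sub_const v) hv.sub_self
      (by rw [rad_sub_const]; exact hxr) hv1
    simp only [add_sub_cancel] at hup
    rw [show (ulim fun n => ‖x n‖) = 1 from
      ulim_eq (tendsto_const_nhds.congr' (hx1.mono fun n hn => hn.symm))] at hup
    nlinarith
  have hvp : 0 < ‖v‖ := by linarith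
  obtain ⟨q, hq⟩ : ∃ q : sphere (0 : X) 1, (q : X) = -(‖v‖⁻¹ • v) :=
    ⟨⟨_, mem_sphere_zero_iff_norm.2 (by
      rw [norm_neg, norm_smul_of_nonneg (inv_nonneg.2 hvp.le), inv_mul_cancel₀ hvp.ne'])⟩, rfl⟩
  have hvq : ‖v - q‖ = 1 + ‖v‖ := by
    rw [hq, sub_neg_eq_add, show v + ‖v‖⁻¹ • v = (1 + ‖v‖⁻¹) • v by module,
      norm_smul_of_nonneg (by positivity), add_mul, inv_mul_cancel₀ hvp.ne', one_mul, add_comm]
  have hyq : 3 / 2 ≤ ‖P⁻¹ • y - (f q : Y)‖ := by
    have h1 := norm_sub_le_norm_sub_add_norm_sub v (f.symm y₀ : X) q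
    have h2 := norm_sub_le_norm_sub_add_norm_sub y (P⁻¹ • y) (f q : Y)
    rw [norm_sub_rev y (P⁻¹ • y)] at h2
    have h3 := iso_norm_sub f (f.symm y₀) q
    rw [IsometryEquiv.apply_symm_apply, hy₀] at h3
    linarith
  have hlow := WL.norm_le (hxb.sub_const (q : X)) (hv.sub_const (q : X))
  have hkey := st.ulim_eq (f q)
  rw [IsometryEquiv.symm_apply_apply, hsty, hstx] at hkey
  rw [hkey, hvq] at hlow
  have hup := ulim_add_le (x := P⁻¹ • y - (f q : Y)) (r := r) (hηb.sub_const (P⁻¹ • y)) hηw.sub_self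
    (by rw [rad_sub_const]; exact hηr) (show (0 : ℝ) < 3 / 2 by norm_num) hyq
  simp only [show ∀ (b c w : Y), b - c + (w - b) = w - c by intros; abel] at hup
  have h4 : ‖P⁻¹ • y - (f q : Y)‖ ≤ P⁻¹ + 1 :=
    (norm_sub_le _ _).trans (by rw [norm_smul_of_nonneg (inv_nonneg.2 hP0.le), hy, sph_norm, mul_one])
  have h5 : 1 - P⁻¹ ≤ 2 * gain X r + 3 / 2 * gain Y (r / (3 / 2)) := by linarith
  have h6 := mul_le_mul_of_nonneg_left h5 hP0.le
  rw [mul_sub, mul_one, mul_inv_cancel₀ hP0.ne'] at h6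
  refine h6.trans (mul_le_mul_of_nonneg_right (by linarith) ?_)
  have := gain_nonneg (X := X) r
  have := gain_nonneg (X := Y) (r / (3 / 2))
  positivity

/-- the target has a modulus of the same power -/
theorem gain_target [CompleteSpace X] {p C : ℝ} (hp : 1 < p) (hC : 1 ≤ C) (hS : SmoothU X)
    (hT : SmoothU Y) (hg : ∀ r, 0 ≤ r → gain X r ≤ C * r ^ p)
    (f : sphere (0 : X) 1 ≃ᵢ sphere (0 : Y) 1) :
    ∃ A : ℝ, C ≤ A ∧ ∀ r, 0 ≤ r → gain Y r ≤ A * r ^ p := by
  obtain ⟨κ, hκ⟩ : ∃ κ : ℝ, κ = (3 / 2 : ℝ) ^ (1 - p) := ⟨_, rfl⟩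
  have hκ0 : 0 < κ := by rw [hκ]; positivity
  have hκ1 : κ < 1 := by
    rw [hκ]; exact Real.rpow_lt_one_of_one_lt_of_neg (by norm_num) (by linarith)
  obtain ⟨ρ, hρ0, hρ20, hρκ⟩ : ∃ ρ : ℝ, 0 < ρ ∧ ρ ≤ 1 / 20 ∧ ρ ≤ (1 - κ) / 2 :=
    ⟨min (1 / 20) ((1 - κ) / 2), lt_min (by norm_num) (by linarith), min_le_left _ _,
      min_le_right _ _⟩
  obtain ⟨A, hA⟩ : ∃ A : ℝ, A = 8 * C / (1 - κ) := ⟨_, rfl⟩
  have hA0 : 0 ≤ A := by rw [hA]; exact div_nonneg (by linarith) (by linarith)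
  have hA' : (1 - κ) * A = 8 * C := by rw [hA]; field_simp [(sub_pos.2 hκ1).ne']
  have key : ∀ ε : ℝ, 0 < ε → ∀ r : ℝ, 0 < r → r ≤ ρ →
      gain Y r ≤ A * r ^ p + ε * Real.exp (3 * r) * r := by
    intro ε hε
    obtain ⟨t, ht, hlit⟩ := gain_littleO hT ε hε
    have ind : ∀ n : ℕ, ∀ r : ℝ, 0 < r → r ≤ ρ → r * (2 / 3) ^ n ≤ t →
        gain Y r ≤ A * r ^ p + ε * Real.exp (3 * r) * r := by
      intro n
      induction n with
      | zero =>
        intro r hr _ hrt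
        rw [pow_zero, mul_one] at hrt
        refine (hlit r hr.le hrt).trans ?_
        have h1 : ε * r ≤ ε * Real.exp (3 * r) * r := by
          refine mul_le_mul_of_nonneg_right (le_mul_of_one_le_right hε.le ?_) hr.le
          exact Real.one_le_exp (by linarith)
        have : 0 ≤ A * r ^ p := mul_nonneg hA0 (Real.rpow_nonneg hr.le p)
        linarith
      | succ n ih =>
        intro r hr hrρ hrt
        have hr' : 0 < r / (3 / 2) := by positivity
        have h1 := ih (r / (3 / 2)) hr' (by linarith) (by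
          rw [pow_succ] at hrt
          linarith)
        have h2 := gain_step hS f hr.le (hrρ.trans hρ20)
        have h3 : (r / (3 / 2)) ^ p * (3 / 2) = κ * r ^ p := by
          rw [hκ, Real.div_rpow hr.le (by norm_num), Real.rpow_sub (by norm_num), Real.rpow_one]
          ring
        have hrp : 0 ≤ r ^ p := Real.rpow_nonneg hr.le p
        have h4 : (1 + r) * Real.exp (3 * (r / (3 / 2))) ≤ Real.exp (3 * r) := by
          rw [show 3 * r = r + 3 * (r / (3 / 2)) by ring, Real.exp_add]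
          gcongr
          linarith [Real.add_one_le_exp r]
        have h5 : (1 + r) * (2 * C + κ * A) ≤ A := by
          have a1 : (1 + r) * (2 * C) ≤ 4 * C := by nlinarith
          have a2 : (1 + r) * κ ≤ (1 + κ) / 2 := by nlinarith
          have a3 := mul_le_mul_of_nonneg_right a2 hA0
          linarith
        have h6 := mul_le_mul_of_nonneg_right h5 hrp
        have h7 : (1 + r) * (2 * gain X r + 3 / 2 * gain Y (r / (3 / 2))) ≤
            (1 + r) * (2 * (C * r ^ p) + 3 / 2 * (A * (r / (3 / 2)) ^ p +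
              ε * Real.exp (3 * (r / (3 / 2))) * (r / (3 / 2)))) := by
          refine mul_le_mul_of_nonneg_left ?_ (by linarith)
          linarith [hg r hr.le]
        have h8 := mul_le_mul_of_nonneg_left h4 (show 0 ≤ ε * r by positivity)
        have e : (1 + r) * (2 * (C * r ^ p) + 3 / 2 * (A * (r / (3 / 2)) ^ p +
            ε * Real.exp (3 * (r / (3 / 2))) * (r / (3 / 2))))
          = (1 + r) * (2 * C + κ * A) * r ^ p +
            ε * r * ((1 + r) * Real.exp (3 * (r / (3 / 2)))) := by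
          rw [show 3 / 2 * (A * (r / (3 / 2)) ^ p + ε * Real.exp (3 * (r / (3 / 2))) * (r / (3 / 2)))
            = A * ((r / (3 / 2)) ^ p * (3 / 2)) + ε * Real.exp (3 * (r / (3 / 2))) * r by ring, h3]
          ring
        linarith
    intro r hr hrρ
    obtain ⟨n, hn⟩ := exists_pow_lt_of_lt_one (show 0 < t / r by positivity)
      (show (2 / 3 : ℝ) < 1 by norm_num)
    refine ind n r hr hrρ ?_
    rw [lt_div_iff₀ hr] at hn
    linarith
  refine ⟨max C (max A (ρ ^ (1 - p))), le_max_left _ _, fun r hr => ?_⟩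
  have hrp : 0 ≤ r ^ p := Real.rpow_nonneg hr p
  rcases hr.eq_or_lt with h0 | h0
  · rw [← h0] at hrp ⊢
    exact (gain_le_self le_rfl).trans
      (mul_nonneg (le_trans (by linarith) (le_max_left C _)) hrp)
  rcases le_or_gt r ρ with h1 | h1
  · have h2 : gain Y r ≤ A * r ^ p := le_of_forall_pos_le_add fun ε hε => by
      have := key (ε / (Real.exp (3 * r) * r)) (by positivity) r h0 h1
      rwa [mul_assoc, div_mul_cancel₀ _ (by positivity)] at this
    exact h2.trans (mul_le_mul_of_nonneg_right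
      ((le_max_left _ _).trans (le_max_right _ _)) hrp)
  · refine (gain_le_self hr).trans (le_trans ?_ (mul_le_mul_of_nonneg_right
      ((le_max_right _ _).trans (le_max_right _ _)) hrp))
    calc r = r ^ (1 - p) * r ^ p := by rw [← Real.rpow_add h0, sub_add_cancel, Real.rpow_one]
      _ ≤ ρ ^ (1 - p) * r ^ p := mul_le_mul_of_nonneg_right
          (Real.rpow_le_rpow_of_nonpos hρ0 h1.le (by linarith)) hrp

/-- Mazur-Ulam for a uniformly smooth space whose asymptotic modulus is exactly a power -/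
theorem linear_of_power [CompleteSpace X] [CompleteSpace Y] {p C : ℝ} (hp : 1 < p) (hC : 1 ≤ C)
    (hS : SmoothU X) (hg : ∀ r, 0 ≤ r → gain X r ≤ C * r ^ p) (hR : Rough X p)
    (f : sphere (0 : X) 1 ≃ᵢ sphere (0 : Y) 1) :
    ∃ T : X ≃ₗᵢ[ℝ] Y, ∀ x : sphere (0 : X) 1, T x = (f x : Y) := by
  have hodd := odd hp hC hS hg hR f
  have hodd' : ∀ b, (f.symm (negSph Y b) : X) = -(f.symm b : X) := by
    intro b
    have h : f (negSph X (f.symm b)) = negSph Y b := Subtype.ext (by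
      rw [hodd, negSph_apply, IsometryEquiv.apply_symm_apply])
    rw [← h, IsometryEquiv.symm_apply_apply, negSph_apply]
  have hT : SmoothU Y := smooth_of_sum_long fun η hη => by
    obtain ⟨δ, hδ, H⟩ := sum_long hS hη
    refine ⟨δ, hδ, fun a b ha hb hab => ?_⟩
    obtain ⟨a', ha'⟩ : ∃ a' : sphere (0 : Y) 1, (a' : Y) = a :=
      ⟨⟨a, mem_sphere_zero_iff_norm.2 ha⟩, rfl⟩
    obtain ⟨b', hb'⟩ : ∃ b' : sphere (0 : Y) 1, (b' : Y) = b :=
      ⟨⟨b, mem_sphere_zero_iff_norm.2 hb⟩, rfl⟩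
    have e1 := iso_norm_sub f.symm a' b'
    have e2 := norm_add_eq f.symm hodd' a' b'
    rw [ha', hb'] at e1 e2
    have := H (f.symm a' : X) (f.symm b' : X) (sph_norm _) (sph_norm _) (by rw [e1]; exact hab)
    rwa [e1, e2] at this
  obtain ⟨A, hCA, hgY⟩ := gain_target hp hC hS hT hg f
  have R : Reg f p A := ⟨hp, hC.trans hCA, hS, hT,
    fun r hr => (hg r hr).trans (mul_le_mul_of_nonneg_right hCA (Real.rpow_nonneg hr p)), hgY,
    adm_of_odd hS f hodd, adm_of_odd hT f.symm hodd'⟩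
  refine linear_of_reg R hR fun z zn hzn => ?_
  have : zn = negSph X z := Subtype.ext (by rw [negSph_apply, hzn])
  rw [this, hodd, map_neg, J_self, sph_norm]

end Vale.Agent.P084.Asym
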